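import Mathlib

/-!
# Continuous families of linear maps: ranks, generalised inverses, uniform contractions
-/

set_option linter.unusedSectionVars false

open Filter Topology Module Function Metric Set

namespace Vale.Agent.P287T.Fa

variable {T E F G : Type*} [TopologicalSpace T] [NormedAddCommGroup E] [NormedSpace ℂ E]
  [FiniteDimensional ℂ E] [NormedAddCommGroup F] [NormedSpace ℂ F] [NormedAddCommGroup G]
  [NormedSpace ℂ G] {t₀ : T}

/-- the rank -/
noncomputable abbrev rkL (a : E →L[ℂ] F) : ℕ := finrank ℂ a.toLinearMap.range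

/-- the dimension of the kernel -/
noncomputable abbrev nuL (a : E →L[ℂ] F) : ℕ := finrank ℂ a.toLinearMap.ker

theorem rk_le {a : T → E →L[ℂ] F} (c : ContinuousAt a t₀) : ∀ᶠ t in 𝓝 t₀, rkL (a t₀) ≤ rkL (a t) := by
  have k : ∀ (n : ℕ) (x : E →L[ℂ] F), ↑n ≤ x.toLinearMap.rank ↔ n ≤ rkL x := fun n x => by
    rw [LinearMap.rank, ← finrank_eq_rank, Nat.cast_le]
  exact (c.eventually ((isOpen_setOfPred_nat_le_rank (rkL (a t₀))).mem_nhds
    ((k _ _).2 le_rfl))).mono fun t h => (k _ _).1 h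

theorem nu_le {a : T → E →L[ℂ] F} (c : ContinuousAt a t₀) : ∀ᶠ t in 𝓝 t₀, nuL (a t) ≤ nuL (a t₀) :=
  (rk_le c).mono fun t h => by
    have := (a t).toLinearMap.finrank_range_add_finrank_ker
    have := (a t₀).toLinearMap.finrank_range_add_finrank_ker
    unfold rkL at h; unfold nuL; omega

variable [FiniteDimensional ℂ F]

theorem gi_pt (a : E →L[ℂ] F) : ∃ g : F →L[ℂ] E, a ∘L g ∘L a = a ∧ g ∘L a ∘L g = g := by
  obtain ⟨r, hr⟩ := a.toLinearMap.rangeRestrict.exists_rightInverse_of_surjective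
    a.toLinearMap.range_rangeRestrict
  obtain ⟨l, hl⟩ := a.toLinearMap.range.subtype.exists_leftInverse_of_injective
    (Submodule.ker_subtype _)
  have h1 : ∀ y, a (r y) = y := fun y => congrArg Subtype.val (LinearMap.congr_fun hr y)
  have h2 : ∀ y : a.toLinearMap.range, l y = y := LinearMap.congr_fun hl
  refine ⟨LinearMap.toContinuousLinearMap (r ∘ₗ l), ContinuousLinearMap.ext fun x => ?_,
    ContinuousLinearMap.ext fun x => ?_⟩
  · exact (h1 _).trans (congrArg Subtype.val (h2 ⟨a x, x, rfl⟩))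
  · exact congrArg r ((congrArg l (h1 _)).trans (h2 _))

theorem gi_alg {a a₀ : E →L[ℂ] F} {g : F →L[ℂ] E} {A B : F →L[ℂ] F} (g1 : ∀ y, a₀ (g (a₀ y)) = a₀ y)
    (e1 : ∀ z, A (a₀ (g z)) = a (g z)) (e2 : ∀ y, B (A y) = y) (k : rkL a ≤ rkL a₀) (x : E) :
    a (g (B (a x))) = a x := by
  have e3 : a₀.toLinearMap.range.map A.toLinearMap = a.toLinearMap.range :=
    Submodule.eq_of_le_of_finrank_le (by
      rintro _ ⟨_, ⟨y, rfl⟩, rfl⟩
      exact ⟨g (a₀ y), (e1 _).symm.trans (congrArg A (g1 y))⟩)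
      (k.trans_eq (Submodule.equivMapOfInjective A.toLinearMap (LeftInverse.injective e2)
        _).finrank_eq)
  obtain ⟨_, ⟨y, rfl⟩, e⟩ := e3.ge ⟨x, rfl⟩
  have e4 : A (a₀ y) = a x := e
  rw [← e4, e2, ← e1]
  exact congrArg A (g1 y)

theorem gi_loc {a : T → E →L[ℂ] F} (c : Continuous a) (h : ∀ᶠ t in 𝓝 t₀, rkL (a t) ≤ rkL (a t₀)) :
    ∃ U ∈ 𝓝 t₀, ∃ g : T → F →L[ℂ] E, ContinuousOn g U ∧ ∀ t ∈ U, a t ∘L g t ∘L a t = a t := by
  have := FiniteDimensional.complete ℂ F
  obtain ⟨g, g1, g2⟩ := gi_pt (a t₀)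
  obtain ⟨A, hA⟩ : ∃ A : T → F →L[ℂ] F, A = fun t => 1 + (a t - a t₀) ∘L g := ⟨_, rfl⟩
  have cA : Continuous A :=
    hA ▸ continuous_const.add ((c.sub continuous_const).clm_comp continuous_const)
  have u : ∀ᶠ t in 𝓝 t₀, IsUnit (A t) := cA.continuousAt.eventually
    (Units.isOpen.mem_nhds (show IsUnit (A t₀) by simp [hA]))
  have g2' : ∀ z, g (a t₀ (g z)) = g z := DFunLike.congr_fun g2
  refine ⟨_, u.and h, fun t => g ∘L Ring.inverse (A t), fun t k => ?_,
    fun t k => ContinuousLinearMap.ext (gi_alg (A := A t) (DFunLike.congr_fun g1)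
      (fun z => by simp [hA, g2']) (DFunLike.congr_fun (Ring.inverse_mul_cancel _ k.1)) k.2)⟩
  obtain ⟨v, e⟩ := k.1
  have c1 : ContinuousAt (Ring.inverse : (F →L[ℂ] F) → _) (A t) :=
    e ▸ NormedRing.inverse_continuousAt v
  exact (continuousAt_const.clm_comp (c1.comp cA.continuousAt)).continuousWithinAt

/-- **continuous generalised inverses** -/
theorem gi [NormalSpace T] [ParacompactSpace T] {a : T → E →L[ℂ] F} (c : Continuous a)
    (h : ∀ t₀, ∀ᶠ t in 𝓝 t₀, rkL (a t) ≤ rkL (a t₀)) :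
    ∃ g : T → F →L[ℂ] E, Continuous g ∧ ∀ t x, a t (g t (a t x)) = a t x := by
  obtain ⟨g, k⟩ := exists_continuous_forall_mem_convex_of_local
    (t := fun t => {g : F →L[ℂ] E | a t ∘L g ∘L a t = a t})
    (fun t g (u : _ = _) g' (v : _ = _) r s _ _ e => show _ = _ by
      rw [ContinuousLinearMap.add_comp, ContinuousLinearMap.comp_add,
        ContinuousLinearMap.smul_comp, ContinuousLinearMap.comp_smul,
        ContinuousLinearMap.smul_comp, ContinuousLinearMap.comp_smul, u, v, ← add_smul, e,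
        one_smul]) fun t => gi_loc c (h t)
  exact ⟨g, g.2, fun t => DFunLike.congr_fun (k t)⟩

/-- constant homology gives constant ranks -/
theorem rk_const {a : T → E →L[ℂ] F} {b : T → F →L[ℂ] G} (ca : ContinuousAt a t₀)
    (cb : ContinuousAt b t₀) {n : ℕ} (h : ∀ t, nuL (b t) = rkL (a t) + n) :
    (∀ᶠ t in 𝓝 t₀, rkL (a t) ≤ rkL (a t₀)) ∧ ∀ᶠ t in 𝓝 t₀, rkL (b t) ≤ rkL (b t₀) :=
  ⟨(nu_le cb).mono fun t k => by rw [h, h] at k; omega, (rk_le ca).mono fun t k => by
    have := (b t).toLinearMap.finrank_range_add_finrank_ker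
    have := (b t₀).toLinearMap.finrank_range_add_finrank_ker
    have := h t
    have := h t₀
    unfold rkL nuL at *; omega⟩

/-- exactness is an open condition -/
theorem exact_open {a : T → E →L[ℂ] F} {b : T → F →L[ℂ] G} (ca : ContinuousAt a t₀)
    (cb : ContinuousAt b t₀) (h : (b t₀).toLinearMap.ker ≤ (a t₀).toLinearMap.range) :
    ∀ᶠ t in 𝓝 t₀, (a t).toLinearMap.range ≤ (b t).toLinearMap.ker →
      (b t).toLinearMap.ker ≤ (a t).toLinearMap.range := by
  filter_upwards [rk_le ca, nu_le cb] with t k1 k2 k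
  exact (Submodule.eq_of_le_of_finrank_le k (k2.trans ((Submodule.finrank_mono h).trans k1))).ge

/-- **uniform contractions** -/
theorem uc {X : Type*} [MetricSpace X] [CompleteSpace X] [Nonempty X] {f : T → X → X}
    (h : ∀ t, LipschitzWith (1 / 2) (f t)) (c : ∀ x, Continuous (f · x)) :
    ∃ x : T → X, Continuous x ∧ (∀ t, f t (x t) = x t) ∧ ∀ t y, f t y = y → x t = y := by
  have k : ∀ t, ContractingWith (1 / 2) (f t) := fun t => ⟨by norm_num, h t⟩
  refine ⟨fun t => (k t).fixedPoint, continuous_iff_continuousAt.2 fun t₀ => ?_,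
    fun t => (k t).fixedPoint_isFixedPt, fun t y e => ((k t).fixedPoint_unique e).symm⟩
  refine tendsto_iff_dist_tendsto_zero.2 (squeeze_zero (fun _ => dist_nonneg) (fun t =>
    (dist_comm _ _).trans_le ((k t).dist_fixedPoint_le (k t₀).fixedPoint)) ?_)
  have := (((continuous_const (y := (k t₀).fixedPoint)).dist (c (k t₀).fixedPoint)).div_const
    (1 - ((1 / 2 : NNReal) : ℝ))).tendsto t₀
  rwa [(k t₀).fixedPoint_isFixedPt.eq, dist_self, zero_div] at this

theorem inj_open {N : Type*} [AddCommGroup N] [Module ℂ N] [FiniteDimensional ℂ N]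
    {L : T → N →ₗ[ℂ] G} (c : ∀ v, ContinuousAt (L · v) t₀) (h : Injective (L t₀)) :
    ∀ᶠ t in 𝓝 t₀, Injective (L t) := by
  let b := Module.finBasis ℂ N
  have k : ContinuousAt (fun t i => L t (b i)) t₀ := continuousAt_pi.2 fun i => c _
  filter_upwards [k.eventually (isOpen_setOfPred_linearIndependent.mem_nhds
    (b.linearIndependent.map' _ (LinearMap.ker_eq_bot.2 h)))] with t u
  refine (injective_iff_map_eq_zero _).2 fun v e => ?_
  rw [← b.sum_repr v, map_sum] at e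
  simp only [map_smul] at e
  exact b.ext_elem fun i => by rw [Fintype.linearIndependent_iff.1 u _ e i, map_zero]; rfl

/-- a quadratic equation with parameters -/
theorem quad {K : T → F →L[ℂ] E} {x : T → F} (Q : E →L[ℂ] E →L[ℂ] F) (cK : Continuous K)
    (cx : Continuous x) {C : ℝ} (C0 : 0 < C) (hK : ∀ t, ‖K t‖ ≤ C) (hQ : ‖Q‖ ≤ C)
    (hx : ∀ t, ‖x t‖ ≤ 1 / (8 * C ^ 3)) : ∃ v : T → E, Continuous v ∧
      (∀ t, K t (x t - Q (v t) (v t)) = v t) ∧ ∀ t, x t = 0 → v t = 0 := by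
  have := FiniteDimensional.complete ℂ E
  have r0 : 0 < 1 / (4 * C ^ 2) := by positivity
  have : Nonempty (closedBall (0 : E) (1 / (4 * C ^ 2))) := ⟨⟨0, mem_closedBall_self r0.le⟩⟩
  have := (isClosed_closedBall (x := (0 : E)) (ε := 1 / (4 * C ^ 2))).completeSpace_coe
  have k : ∀ t y, ‖K t y‖ ≤ C * ‖y‖ := fun t => (K t).le_of_opNorm_le (hK t)
  have q : ∀ u v, ‖Q u v‖ ≤ C * ‖u‖ * ‖v‖ := fun u v => Q.le_of_opNorm₂_le_of_le hQ le_rfl le_rfl
  obtain ⟨v, h1, h2, h3⟩ := uc (T := T) (X := closedBall (0 : E) (1 / (4 * C ^ 2)))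
    (f := fun t v => ⟨K t (x t - Q v.1 v.1), mem_closedBall_zero_iff.2 ((k _ _).trans (by
      have a := mem_closedBall_zero_iff.1 v.2
      calc _ ≤ C * (1 / (8 * C ^ 3) + C * (1 / (4 * C ^ 2)) * (1 / (4 * C ^ 2))) := by
            gcongr
            exact (norm_sub_le _ _).trans (add_le_add (hx t) ((q _ _).trans (by gcongr)))
        _ = 3 / 4 * (1 / (4 * C ^ 2)) := by field_simp; ring
        _ ≤ _ := by linarith))⟩)
    (fun t => LipschitzWith.of_dist_le_mul fun u v => by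
      have a := mem_closedBall_zero_iff.1 u.2
      have b := mem_closedBall_zero_iff.1 v.2
      rw [Subtype.dist_eq, Subtype.dist_eq, dist_eq_norm, dist_eq_norm, ← map_sub]
      refine (k _ _).trans ?_
      rw [show x t - Q u.1 u.1 - (x t - Q v.1 v.1) = -(Q (u.1 - v.1) u.1 + Q v.1 (u.1 - v.1)) by
        simp only [map_sub, sub_apply]; abel, norm_neg]
      calc _ ≤ C * (C * ‖u.1 - v.1‖ * (1 / (4 * C ^ 2)) + C * (1 / (4 * C ^ 2)) * ‖u.1 - v.1‖) := by
            gcongr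
            exact (norm_add_le _ _).trans (add_le_add ((q _ _).trans (by gcongr))
              ((q _ _).trans (by gcongr)))
        _ = _ := by push_cast; field_simp; ring)
    fun v => (cK.clm_apply (cx.sub continuous_const)).subtype_mk _
  exact ⟨fun t => v t, h1.subtype_val, fun t => congrArg Subtype.val (h2 t), fun t e =>
    congrArg Subtype.val (h3 t ⟨0, mem_closedBall_self r0.le⟩ (Subtype.ext (by simp [e])))⟩

theorem quad_loc [CompactSpace T] {B : Type*} [TopologicalSpace B] {b₀ : B} {K : T → F →L[ℂ] E}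
    {x : T × B → F} (Q : E →L[ℂ] E →L[ℂ] F) (cK : Continuous K) (cx : Continuous x)
    (h : ∀ t, x (t, b₀) = 0) : ∃ U ∈ 𝓝 b₀, ∃ v : T × U → E, Continuous v ∧
      (∀ y, K y.1 (x (y.1, y.2) - Q (v y) (v y)) = v y) ∧ ∀ t k, v (t, ⟨b₀, k⟩) = 0 := by
  obtain ⟨C, hC⟩ := (isCompact_range cK.norm).bddAbove
  have C0 : 0 < max (max C ‖Q‖) 1 := lt_max_of_lt_right one_pos
  have u : ∀ᶠ b in 𝓝 b₀, ∀ t ∈ univ, ‖x (t, b)‖ < 1 / (8 * max (max C ‖Q‖) 1 ^ 3) :=
    isCompact_univ.eventually_forall_of_forall_eventually fun t _ =>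
      (cx.comp continuous_swap).norm.continuousAt.eventually_lt continuousAt_const
        (by simp [h])
  obtain ⟨v, h1, h2, h3⟩ := quad (T := T × {b | ∀ t ∈ univ, ‖x (t, b)‖ < _})
    (K := fun y => K y.1) (x := fun y => x (y.1, y.2)) Q (cK.comp continuous_fst) (by fun_prop) C0
    (fun y => le_max_of_le_left (le_max_of_le_left (hC ⟨_, rfl⟩)))
    (le_max_of_le_left (le_max_right _ _)) fun y => (y.2.2 _ trivial).le
  exact ⟨_, u, v, h1, h2, fun t k => h3 _ (h t)⟩

end Vale.Agent.P287T.Fa
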