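import Vale.Agent.P287T.Fa.Defs
import Vale.Agent.P287T.Fa.Gi

/-!
# The complexes of maps between the members of two families
-/

set_option linter.unusedSectionVars false

open MvPolynomial Filter Topology Module Function
open scoped Matrix.Norms.Operator

namespace Vale.Agent.P287T.Fa

open Cy P287Z.O P287Z.O.L P287Z.T

variable {ι κ μ ν : Type} [Fintype ι] [Fintype κ] [Fintype μ] [Fintype ν]

/-- the restriction of a linear map -/
noncomputable def toL {A : Submodule ℂ (Matrix κ ι S6)} [FiniteDimensional ℂ A]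
    {B : Submodule ℂ (Matrix ν μ S6)} (φ : Matrix κ ι S6 →ₗ[ℂ] Matrix ν μ S6)
    (h : ∀ g ∈ A, φ g ∈ B) : A →L[ℂ] B := LinearMap.toContinuousLinearMap (φ.restrict h)

theorem continuous_toL {T : Type*} [TopologicalSpace T] {A : Submodule ℂ (Matrix κ ι S6)}
    [FiniteDimensional ℂ A] {B : Submodule ℂ (Matrix ν μ S6)}
    {φ : T → Matrix κ ι S6 →ₗ[ℂ] Matrix ν μ S6} (h : ∀ t, ∀ g ∈ A, φ t g ∈ B)
    (c : ∀ g, Continuous (φ · g)) : Continuous fun t => toL (φ t) (h t) :=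
  continuous_clm_apply.2 fun g => (c g.1).subtype_mk _

variable {W : S6} {p : ι → ℤ} {q : κ → ℤ} {i j : ℤ} {e : Matrix ι ι ℂ} {d : Matrix ι ι S6}
  {f : Matrix κ κ ℂ} {d' : Matrix κ κ S6}

theorem IsPF.ee' (h : IsPF W p e d) : cM e * cM e = cM e := by rw [← cM_mul, h.ee]

/-- the commutator with the differentials -/
noncomputable def cmt (d' : Matrix κ κ S6) (d : Matrix ι ι S6) :
    Matrix κ ι S6 →ₗ[ℂ] Matrix κ ι S6 where
  toFun g := d' * g - g * d
  map_add' _ _ := by rw [Matrix.mul_add, Matrix.add_mul, add_sub_add_comm]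
  map_smul' _ _ := by rw [Matrix.mul_smul, Matrix.smul_mul, ← smul_sub]; rfl

theorem MP.left {g : Matrix κ ι S6} (hg : g ∈ MP p e q f j) (h : f * f = f) : cM f * g = g := by
  rw [← hg.2, ← Matrix.mul_assoc, ← Matrix.mul_assoc, ← cM_mul, h]

theorem MP.right {g : Matrix κ ι S6} (hg : g ∈ MP p e q f j) (h : e * e = e) : g * cM e = g := by
  rw [← hg.2, Matrix.mul_assoc, ← cM_mul, h]

theorem mem_MP {g : Matrix κ ι S6} (hg : g ∈ MM p q j) (h : cM f * g = g) (h' : g * cM e = g) :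
    g ∈ MP p e q f j := ⟨hg, by rw [h, h']⟩

section

variable (h : IsPF W p e d) (h' : IsPF W q f d')
include h h'

theorem sand_MP {g : Matrix κ ι S6} (hg : g ∈ MM p q j) : cM f * g * cM e ∈ MP p e q f j :=
  ⟨MM_mul (MM_mul h'.blk.mm hg (zero_add _)) h.blk.mm (add_zero _), by
    rw [← Matrix.mul_assoc, ← Matrix.mul_assoc, ← cM_mul, h'.ee, Matrix.mul_assoc _ (cM e),
      ← cM_mul, h.ee]⟩

theorem bd_eq (g : Matrix κ ι S6) :
    d' * (cM f * g * cM e) + cM f * g * cM e * d = d' * g * cM e + cM f * g * d := by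
  rw [← Matrix.mul_assoc, ← Matrix.mul_assoc, h'.de, Matrix.mul_assoc _ (cM e), h.ed]

theorem mem_BP {g : Matrix κ ι S6} :
    g ∈ BP p e d q f d' j ↔ ∃ k ∈ MP p e q f (j - 3), g = d' * k + k * d := by
  refine ⟨fun ⟨u, k, v, w⟩ => ⟨_, sand_MP h h' v, ?_⟩, fun ⟨k, u, v⟩ => ⟨?_, k, u.1, v⟩⟩
  · rw [bd_eq h h', ← u.2, w, Matrix.mul_add, Matrix.add_mul, ← Matrix.mul_assoc, h'.ed,
      ← Matrix.mul_assoc, Matrix.mul_assoc _ d, h.de]
  · refine v ▸ mem_MP (add_mem (MM_mul h'.deg u.1 (by omega)) (MM_mul u.1 h.deg (by omega))) ?_ ?_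
    · rw [Matrix.mul_add, ← Matrix.mul_assoc, h'.ed, ← Matrix.mul_assoc, MP.left u h'.ee]
    · rw [Matrix.add_mul, Matrix.mul_assoc, MP.right u h.ee, Matrix.mul_assoc, h.de]

theorem BP_le : BP p e d q f d' j ≤ ZP p e d q f d' j := fun g u => by
  obtain ⟨k, v, w⟩ := (mem_BP h h').1 u
  refine ⟨u.1, u.1.1, ?_⟩
  rw [w, Matrix.mul_add, Matrix.add_mul, ← Matrix.mul_assoc, h'.sq, Matrix.mul_assoc k, h.sq,
    Matrix.smul_mul, Matrix.mul_smul, MP.left v h'.ee, MP.right v h.ee, Matrix.mul_assoc, add_comm]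

/-- the boundary operator -/
noncomputable def al (hi : i + 3 = j) : MM p q i →L[ℂ] MM p q j :=
  toL (sand d' (cM e) + sand (cM f) d) fun _ u => add_mem
    (MM_mul (MM_mul h'.deg u (add_comm _ _)) h.blk.mm (by omega))
    (MM_mul (MM_mul h'.blk.mm u (zero_add _)) h.deg hi)

/-- the operator that cuts out the closed maps -/
noncomputable def be (j : ℤ) : MM p q j →L[ℂ] MM p q (j + 3) × MM p q j :=
  (toL (cmt d' d) fun _ u => sub_mem (MM_mul h'.deg u (add_comm _ _)) (MM_mul u h.deg rfl)).prod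
    (toL (.id - sand (cM f) (cM e)) fun _ u => sub_mem u (sand_MP h h' u).1)

theorem al_val (hi : i + 3 = j) (g : MM p q i) :
    (al h h' hi g).1 = d' * g.1 * cM e + cM f * g.1 * d := rfl

theorem be_eq (g : MM p q j) : be h h' j g = 0 ↔ g.1 ∈ ZP p e d q f d' j := by
  refine Prod.mk_eq_zero.trans ((and_congr Subtype.ext_iff Subtype.ext_iff).trans ?_)
  change d' * g.1 - g.1 * d = 0 ∧ g.1 - cM f * g.1 * cM e = 0 ↔ _
  rw [sub_eq_zero, sub_eq_zero]
  exact ⟨fun u => ⟨⟨g.2, u.2.symm⟩, g.2, u.1⟩, fun u => ⟨u.2.2, u.1.2.symm⟩⟩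

theorem al_range (hi : i + 3 = j) (g : MM p q j) :
    g ∈ (al h h' hi).toLinearMap.range ↔ g.1 ∈ BP p e d q f d' j := by
  obtain rfl : i = j - 3 := by omega
  rw [mem_BP h h']
  refine ⟨fun ⟨k, u⟩ => ⟨_, sand_MP h h' k.2, by rw [bd_eq h h', ← u]; rfl⟩,
    fun ⟨k, u, v⟩ => ⟨⟨k, u.1⟩, Subtype.ext ?_⟩⟩
  exact (bd_eq h h' k).symm.trans (by rw [u.2, v])

theorem rkL_al (hi : i + 3 = j) : rkL (al h h' hi) = finrank ℂ (BP p e d q f d' j) :=
  ((LinearEquiv.ofEq _ _ (Submodule.ext (al_range h h' hi))).trans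
    (Submodule.comapSubtypeEquivOfLe (p := BP p e d q f d' j) (q := MM p q j)
      fun _ u => u.1.1)).finrank_eq

theorem nuL_be (j : ℤ) : nuL (be h h' j) = finrank ℂ (ZP p e d q f d' j) :=
  ((LinearEquiv.ofEq _ _ (Submodule.ext (be_eq h h'))).trans
    (Submodule.comapSubtypeEquivOfLe (p := ZP p e d q f d' j) (q := MM p q j)
      fun _ u => u.1.1)).finrank_eq

omit h h' in
instance finZP : FiniteDimensional ℂ (ZP p e d q f d' j) :=
  Submodule.finiteDimensional_of_le (S₂ := MM p q j) fun _ u => u.1.1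

theorem nu_rk (hi : i + 3 = j) :
    nuL (be h h' j) = rkL (al h h' hi) + finrank ℂ (HP p e d q f d' j) := by
  rw [nuL_be, rkL_al, add_comm, finrank_hq (BP_le h h')]

theorem be_al (hi : i + 3 = j) (g : MM p q i) : be h h' j (al h h' hi g) = 0 :=
  (be_eq h h' _).2 (BP_le h h' ((al_range h h' hi _).1 ⟨g, rfl⟩))

theorem le_iff_ex (hi : i + 3 = j) : ZP p e d q f d' j ≤ BP p e d q f d' j ↔
    ∀ g, be h h' j g = 0 → g ∈ (al h h' hi).toLinearMap.range :=
  ⟨fun k g u => (al_range h h' hi g).2 (k ((be_eq h h' g).1 u)), fun k g v =>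
    (al_range h h' hi ⟨g, v.1.1⟩).1 (k _ ((be_eq h h' _).2 v))⟩

end

section

variable {T : Type} [TopologicalSpace T] {W : T → S6} {e : T → Matrix ι ι ℂ}
  {d : T → Matrix ι ι S6} {f : T → Matrix κ κ ℂ} {d' : T → Matrix κ κ S6} (h : PF W p e d)
  (h' : PF W q f d')

theorem PF.cont_al (hi : i + 3 = j) : Continuous fun t => al (h.pf t) (h'.pf t) hi :=
  continuous_toL _ fun _ => ((h'.contd.matrix_mul continuous_const).matrix_mul h.conte).add
    ((h'.conte.matrix_mul continuous_const).matrix_mul h.contd)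

theorem PF.cont_be (j : ℤ) : Continuous fun t => be (h.pf t) (h'.pf t) j :=
  continuous_clm_apply.2 fun _ => .prodMk
    (((h'.contd.matrix_mul continuous_const).sub
      (continuous_const.matrix_mul h.contd)).subtype_mk _)
    ((continuous_const.sub
      ((h'.conte.matrix_mul continuous_const).matrix_mul h.conte)).subtype_mk _)

include h h'

/-- the vanishing of the homotopy classes is an open condition -/
theorem PF.isOpen_le (j : ℤ) :
    IsOpen {t | ZP p (e t) (d t) q (f t) (d' t) j ≤ BP p (e t) (d t) q (f t) (d' t) j} := by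
  refine isOpen_iff_eventually.2 fun t₀ k => ?_
  have a := exact_open (h.cont_al h' (sub_add_cancel j 3)).continuousAt
    (h.cont_be h' j).continuousAt ((le_iff_ex (h.pf t₀) (h'.pf t₀) _).1 k)
  filter_upwards [a] with t u
  exact (le_iff_ex (h.pf t) (h'.pf t) _).2 (u fun g ⟨x, w⟩ => w ▸ be_al _ _ _ x)

/-- upper semicontinuity -/
theorem PF.finrank_le (j : ℤ) (t₀ : T) : ∀ᶠ t in 𝓝 t₀,
    finrank ℂ (HP p (e t) (d t) q (f t) (d' t) j) ≤
      finrank ℂ (HP p (e t₀) (d t₀) q (f t₀) (d' t₀) j) := by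
  filter_upwards [rk_le (h.cont_al h' (sub_add_cancel j 3)).continuousAt,
    nu_le (h.cont_be h' j).continuousAt] with t u v
  rw [nu_rk _ _ (sub_add_cancel j 3), nu_rk _ _ (sub_add_cancel j 3)] at v
  omega

variable [NormalSpace T] [ParacompactSpace T]

theorem PF.gi_al (hi : i + 3 = j) {n : ℕ}
    (k : ∀ t, finrank ℂ (HP p (e t) (d t) q (f t) (d' t) j) = n) :
    ∃ G : T → MM p q j →L[ℂ] MM p q i, Continuous G ∧
      ∀ t x, al (h.pf t) (h'.pf t) hi (G t (al (h.pf t) (h'.pf t) hi x)) =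
        al (h.pf t) (h'.pf t) hi x :=
  gi (h.cont_al h' hi) fun _ => (rk_const (h.cont_al h' hi).continuousAt
    (h.cont_be h' j).continuousAt fun t => k t ▸ nu_rk _ _ hi).1

theorem PF.gi_be {n : ℕ} (k : ∀ t, finrank ℂ (HP p (e t) (d t) q (f t) (d' t) j) = n) :
    ∃ G : T → MM p q (j + 3) × MM p q j →L[ℂ] MM p q j, Continuous G ∧
      ∀ t x, be (h.pf t) (h'.pf t) j (G t (be (h.pf t) (h'.pf t) j x)) =
        be (h.pf t) (h'.pf t) j x :=
  gi (h.cont_be h' j) fun _ => (rk_const (h.cont_al h' (sub_add_cancel j 3)).continuousAt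
    (h.cont_be h' j).continuousAt fun t => k t ▸ nu_rk _ _ _).2

end

end Vale.Agent.P287T.Fa
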