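import Vale.Agent.P287T.Fa.Nrm

/-!
# Families of graded matrix factorizations over a topological space

A member of a family is a factorization `d` on the image of a constant idempotent `e` that respects
the charges. A splitting `a * b = 1`, `b * a = e` gives an honest factorization `a d b`.
-/

set_option linter.unusedSectionVars false

open MvPolynomial Filter Topology Module
open scoped Matrix.Norms.Operator

namespace Vale.Agent.P287T.Fa

open Cy P287Z.O P287Z.O.L P287Z.T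

variable {ι κ μ ν : Type} [Fintype ι] [Fintype κ] [Fintype μ] [Fintype ν]

/-- constant matrices -/
noncomputable def cM (a : Matrix κ ι ℂ) : Matrix κ ι S6 := a.map C

/-- `a` respects the charges -/
def Blk (p : ι → ℤ) (q : κ → ℤ) (a : Matrix κ ι ℂ) : Prop := ∀ k i, q k ≠ p i → a k i = 0

/-- a matrix factorization on the image of `e` -/
structure IsPF (W : S6) (p : ι → ℤ) (e : Matrix ι ι ℂ) (d : Matrix ι ι S6) : Prop where
  blk : Blk p p e
  ee : e * e = e
  deg : d ∈ MM p p 3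
  ed : cM e * d = d
  de : d * cM e = d
  sq : d * d = W • cM e

/-- a continuous family of matrix factorizations -/
structure PF {T : Type} [TopologicalSpace T] (W : T → S6) (p : ι → ℤ) (e : T → Matrix ι ι ℂ)
    (d : T → Matrix ι ι S6) : Prop where
  pf : ∀ t, IsPF (W t) p (e t) (d t)
  hW : ∀ t, V.Hg 6 (W t)
  cW : ∀ m, Continuous fun t => coeff m (W t)
  ce : Continuous e
  cd : ∀ i j m, Continuous fun t => coeff m (d t i j)

/-- a splitting of `e` -/
structure Spl [DecidableEq κ] (p : ι → ℤ) (e : Matrix ι ι ℂ) (q : κ → ℤ) (a : Matrix κ ι ℂ)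
    (b : Matrix ι κ ℂ) : Prop where
  ba : Blk p q a
  bb : Blk q p b
  one : a * b = 1
  eq : b * a = e

/-- the maps of degree `j` from the image of `e` to the image of `f` -/
def MP (p : ι → ℤ) (e : Matrix ι ι ℂ) (q : κ → ℤ) (f : Matrix κ κ ℂ) (j : ℤ) :
    Submodule ℂ (Matrix κ ι S6) where
  carrier := {g | g ∈ MM p q j ∧ cM f * g * cM e = g}
  zero_mem' := ⟨zero_mem _, by rw [Matrix.mul_zero, Matrix.zero_mul]⟩
  add_mem' h h' := ⟨add_mem h.1 h'.1, by rw [Matrix.mul_add, Matrix.add_mul, h.2, h'.2]⟩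
  smul_mem' c _ h := ⟨Submodule.smul_mem _ c h.1, by rw [Matrix.mul_smul, Matrix.smul_mul, h.2]⟩

/-- closed maps -/
noncomputable def ZP (p : ι → ℤ) (e : Matrix ι ι ℂ) (d : Matrix ι ι S6) (q : κ → ℤ) (f : Matrix κ κ ℂ)
    (d' : Matrix κ κ S6) (j : ℤ) : Submodule ℂ (Matrix κ ι S6) := MP p e q f j ⊓ ZZ p d q d' j

/-- null-homotopic maps -/
noncomputable def BP (p : ι → ℤ) (e : Matrix ι ι ℂ) (d : Matrix ι ι S6) (q : κ → ℤ) (f : Matrix κ κ ℂ)
    (d' : Matrix κ κ S6) (j : ℤ) : Submodule ℂ (Matrix κ ι S6) := MP p e q f j ⊓ BB p d q d' j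

/-- homotopy classes of closed maps -/
abbrev HP (p : ι → ℤ) (e : Matrix ι ι ℂ) (d : Matrix ι ι S6) (q : κ → ℤ) (f : Matrix κ κ ℂ)
    (d' : Matrix κ κ S6) (j : ℤ) : Type := HQ (ZP p e d q f d' j) (BP p e d q f d' j)

variable {W : S6} {p : ι → ℤ} {q : κ → ℤ} {r : μ → ℤ} {s : ν → ℤ} {j : ℤ}

theorem cM_mul (a : Matrix μ κ ℂ) (b : Matrix κ ι ℂ) : cM (a * b) = cM a * cM b := Matrix.map_mul

theorem cM_one [DecidableEq ι] : cM (1 : Matrix ι ι ℂ) = 1 := Matrix.map_one _ C_0 C_1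

theorem cM_zero : cM (0 : Matrix κ ι ℂ) = 0 := Matrix.map_zero _ C_0

theorem cM_add (a b : Matrix κ ι ℂ) : cM (a + b) = cM a + cM b := Matrix.map_add _ (map_add _) _ _

theorem cM_sub (a b : Matrix κ ι ℂ) : cM (a - b) = cM a - cM b := Matrix.map_sub _ (map_sub _) _ _

theorem cM_smul (c : ℂ) (a : Matrix κ ι ℂ) : cM (c • a) = c • cM a :=
  Matrix.ext fun _ _ => by simp [cM, smul_eq_C_mul]

theorem continuous_C : Continuous (C : ℂ → S6) := continuous_algebraMap ℂ S6

theorem continuous_cM : Continuous (cM : Matrix κ ι ℂ → _) :=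
  continuous_id.matrix_map continuous_C

theorem Blk.mm {a : Matrix κ ι ℂ} (h : Blk p q a) : cM a ∈ MM p q 0 := fun k i => by
  by_cases e : q k = p i
  · rw [e, zero_add, sub_self]; exact isWeightedHomogeneous_C _ _
  · rw [cM, Matrix.map_apply, h k i e, C_0]; exact hga_zero _

theorem Blk.mul {a : Matrix μ κ ℂ} {b : Matrix κ ι ℂ} (ha : Blk q r a) (hb : Blk p q b) :
    Blk p r (a * b) := fun m i e => Finset.sum_eq_zero fun k _ => by
  by_cases h : r m = q k
  · exact mul_eq_zero_of_right _ (hb k i (h ▸ e))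
  · exact mul_eq_zero_of_left (ha m k h) _

theorem Blk.one [DecidableEq ι] : Blk p p (1 : Matrix ι ι ℂ) := fun _ _ e =>
  Matrix.one_apply_ne fun h => e (congrArg p h)

theorem Blk.sub {a b : Matrix κ ι ℂ} (ha : Blk p q a) (hb : Blk p q b) : Blk p q (a - b) :=
  fun k i e => by rw [Matrix.sub_apply, ha k i e, hb k i e, sub_zero]

theorem Blk.add {a b : Matrix κ ι ℂ} (ha : Blk p q a) (hb : Blk p q b) : Blk p q (a + b) :=
  fun k i e => by rw [Matrix.add_apply, ha k i e, hb k i e, add_zero]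

theorem blk_iff [DecidableEq ι] [DecidableEq κ] {a : Matrix κ ι ℂ} : Blk p q a ↔
    Matrix.diagonal (fun k => (q k : ℂ)) * a = a * Matrix.diagonal fun i => (p i : ℂ) := by
  simp only [← Matrix.ext_iff, Matrix.diagonal_mul, Matrix.mul_diagonal, mul_comm (a _ _),
    mul_eq_mul_right_iff, Int.cast_inj, or_iff_not_imp_left]
  rfl

theorem Blk.inv [DecidableEq ι] {a : Matrix ι ι ℂ} (h : Blk p p a) : Blk p p a⁻¹ := by
  by_cases u : IsUnit a.det
  · rw [blk_iff] at h ⊢
    rw [← Matrix.nonsing_inv_mul_cancel_left a (_ * a⁻¹) u, ← Matrix.mul_assoc a, ← h,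
      Matrix.mul_nonsing_inv_cancel_right _ _ u]
  · rw [Matrix.nonsing_inv_apply_not_isUnit _ u]; exact fun _ _ _ => rfl

theorem IsMF.isPF [DecidableEq ι] {d : Matrix ι ι S6} (h : IsMF W p d) : IsPF W p 1 d :=
  ⟨Blk.one, one_mul _, h.deg, by rw [cM_one, one_mul], by rw [cM_one, mul_one],
    by rw [cM_one, h.sq]⟩

theorem Spl.refl [DecidableEq ι] : Spl p 1 p 1 1 := ⟨Blk.one, Blk.one, one_mul _, one_mul _⟩

namespace PF

variable {T : Type} [TopologicalSpace T] {W : T → S6} {e : T → Matrix ι ι ℂ}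
  {d : T → Matrix ι ι S6}

theorem contW (h : PF W p e d) : Continuous W := (continuous_hg h.hW).2 h.cW

theorem contd (h : PF W p e d) : Continuous d := (continuous_MM fun t => (h.pf t).deg).2 h.cd

theorem conte (h : PF W p e d) : Continuous fun t => cM (e t) := continuous_cM.comp h.ce

theorem of_cont (pf : ∀ t, IsPF (W t) p (e t) (d t)) (hW : ∀ t, V.Hg 6 (W t)) (cW : Continuous W)
    (ce : Continuous e) (cd : Continuous d) : PF W p e d :=
  ⟨pf, hW, (continuous_hg hW).1 cW, ce, (continuous_MM fun t => (pf t).deg).1 cd⟩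

/-- the pull-back of a family -/
theorem comp (h : PF W p e d) {T' : Type} [TopologicalSpace T'] {f : T' → T} (hf : Continuous f) :
    PF (W ∘ f) p (e ∘ f) (d ∘ f) :=
  ⟨fun _ => h.pf _, fun _ => h.hW _, fun m => (h.cW m).comp hf, h.ce.comp hf,
    fun i j m => (h.cd i j m).comp hf⟩

end PF

/-- the constant family -/
theorem IsPF.const {e : Matrix ι ι ℂ} {d : Matrix ι ι S6} (h : IsPF W p e d) (hW : V.Hg 6 W)
    (T : Type) [TopologicalSpace T] : PF (fun _ : T => W) p (fun _ => e) fun _ => d :=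
  ⟨fun _ => h, fun _ => hW, fun _ => continuous_const, continuous_const,
    fun _ _ _ => continuous_const⟩

/-- every idempotent splits -/
theorem exists_spl {e : Matrix ι ι ℂ} (hb : Blk p p e) (he : e * e = e) :
    ∃ (n : ℕ) (q : Fin n → ℤ) (a : Matrix (Fin n) ι ℂ) (b : Matrix ι (Fin n) ℂ), Spl p e q a b := by
  classical
  obtain ⟨K, c, h1, h2, h3⟩ := exists_linearIndependent' ℂ e.col
  have := Finite.of_injective c h1
  obtain ⟨n, ⟨σ⟩⟩ := Finite.exists_equiv_fin K
  let b : Matrix ι (Fin n) ℂ := .of fun i k => e i (c (σ.symm k))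
  have hi : LinearIndependent ℂ b.col := h3.comp _ σ.symm.injective
  have : ∀ i, ∃ v : Fin n → ℂ, ∑ k, v k • b.col k = e.col i := fun i =>
    (Submodule.mem_span_range_iff_exists_fun ℂ).1 (by
      rw [show b.col = (e.col ∘ c) ∘ σ.symm from rfl, σ.symm.surjective.range_comp, h2]
      exact Submodule.subset_span ⟨i, rfl⟩)
  choose v hv using this
  let a : Matrix (Fin n) ι ℂ := .of fun k i => if p (c (σ.symm k)) = p i then v i k else 0
  have h4 : b * a = e := Matrix.ext fun l i => by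
    rw [Matrix.mul_apply]
    by_cases u : p l = p i
    · refine .trans (Finset.sum_congr rfl fun k _ => ?_)
        ((Finset.sum_apply _ _ _).symm.trans (congrFun (hv i) l))
      by_cases w : p (c (σ.symm k)) = p i
      · exact (congrArg _ (if_pos w)).trans (mul_comm _ _)
      · have : b l k = 0 := hb _ _ (u ▸ Ne.symm w)
        exact (mul_eq_zero_of_left this _).trans (mul_eq_zero_of_right _ this).symm
    · refine (Finset.sum_eq_zero fun k _ => ?_).trans (hb _ _ u).symm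
      by_cases w : p (c (σ.symm k)) = p i
      · exact mul_eq_zero_of_left (hb _ _ (w ▸ u)) _
      · exact mul_eq_zero_of_right _ (if_neg w)
  have h5 : e * b = b := Matrix.ext fun l k => congrFun (congrFun he l) _
  refine ⟨n, fun k => p (c (σ.symm k)), a, b, fun k i u => if_neg u, fun i k u => hb _ _ u, ?_, h4⟩
  have h6 := Matrix.mulVec_injective_iff.2 hi
  refine Matrix.ext_of_mulVec_single fun k => h6 ?_
  rw [Matrix.mulVec_mulVec, Matrix.mulVec_mulVec, ← Matrix.mul_assoc, h4, h5, Matrix.mul_one]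

/-- multiplication on both sides -/
noncomputable def sand (x : Matrix μ ν S6) (y : Matrix κ ι S6) :
    Matrix ν κ S6 →ₗ[ℂ] Matrix μ ι S6 where
  toFun g := x * g * y
  map_add' _ _ := by rw [Matrix.mul_add, Matrix.add_mul]
  map_smul' _ _ := by rw [Matrix.mul_smul, Matrix.smul_mul]; rfl

namespace Spl

variable [DecidableEq κ] {e : Matrix ι ι ℂ} {a : Matrix κ ι ℂ} {b : Matrix ι κ ℂ}
  {d : Matrix ι ι S6} (h : Spl p e q a b)
include h

theorem ab : cM a * cM b = 1 := by rw [← cM_mul, h.one, cM_one]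

theorem ba' : cM b * cM a = cM e := by rw [← cM_mul, h.eq]

theorem ae : cM a * cM e = cM a := by rw [← h.ba', ← Matrix.mul_assoc, h.ab, Matrix.one_mul]

theorem eb : cM e * cM b = cM b := by rw [← h.ba', Matrix.mul_assoc, h.ab, Matrix.mul_one]

theorem a_d (hd : IsPF W p e d) : cM a * d * cM b * cM a = cM a * d := by
  rw [Matrix.mul_assoc, h.ba', Matrix.mul_assoc, hd.de]

theorem b_d (hd : IsPF W p e d) : cM b * (cM a * d * cM b) = d * cM b := by
  rw [← Matrix.mul_assoc, ← Matrix.mul_assoc, h.ba', hd.ed]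

/-- **the fibre** as an honest factorization -/
theorem isMF (hd : IsPF W p e d) : IsMF W q (cM a * d * cM b) :=
  ⟨MM_mul (MM_mul h.ba.mm hd.deg (zero_add _)) h.bb.mm (add_zero _), by
    rw [Matrix.mul_assoc, h.b_d hd, Matrix.mul_assoc, ← Matrix.mul_assoc d, hd.sq,
      Matrix.smul_mul, h.eb, Matrix.mul_smul, h.ab]⟩

variable [DecidableEq ν] {f : Matrix μ μ ℂ} {a' : Matrix ν μ ℂ} {b' : Matrix μ ν ℂ}
  {d' : Matrix μ μ S6} (h' : Spl r f s a' b')
include h'

theorem mem_MP {g : Matrix ν κ S6} (hg : g ∈ MM q s j) : cM b' * g * cM a ∈ MP p e r f j :=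
  ⟨MM_mul (MM_mul h'.bb.mm hg (zero_add _)) h.ba.mm (add_zero _), by
    rw [Matrix.mul_assoc (cM f), Matrix.mul_assoc _ (cM a), h.ae, ← Matrix.mul_assoc,
      ← Matrix.mul_assoc, h'.eb]⟩

theorem up_dn {g : Matrix μ ι S6} (hg : g ∈ MP p e r f j) :
    cM b' * (cM a' * g * cM b) * cM a = g := by
  rw [← Matrix.mul_assoc, ← Matrix.mul_assoc, h'.ba', Matrix.mul_assoc, h.ba', hg.2]

theorem dn_up (g : Matrix ν κ S6) : cM a' * (cM b' * g * cM a) * cM b = g := by
  rw [← Matrix.mul_assoc, ← Matrix.mul_assoc, h'.ab, Matrix.one_mul, Matrix.mul_assoc, h.ab,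
    Matrix.mul_one]

variable (hd : IsPF W p e d) (hd' : IsPF W r f d')
include hd hd'

theorem up_l (g : Matrix ν κ S6) :
    cM b' * (cM a' * d' * cM b' * g) * cM a = d' * (cM b' * g * cM a) := by
  rw [← Matrix.mul_assoc (cM b'), h'.b_d hd']; simp only [Matrix.mul_assoc]

theorem up_r (g : Matrix ν κ S6) :
    cM b' * (g * (cM a * d * cM b)) * cM a = cM b' * g * cM a * d := by
  rw [Matrix.mul_assoc (cM b'), Matrix.mul_assoc g, h.a_d hd]; simp only [Matrix.mul_assoc]

theorem up_ZP {g : Matrix ν κ S6} (hg : g ∈ MM q s j) : cM b' * g * cM a ∈ ZP p e d r f d' j ↔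
    g ∈ ZZ q (cM a * d * cM b) s (cM a' * d' * cM b') j := by
  refine ⟨fun u => ⟨hg, ?_⟩, fun u => ⟨h.mem_MP h' hg, (h.mem_MP h' hg).1, ?_⟩⟩
  · rw [← h.dn_up h' (_ * g), h.up_l h' hd hd', u.2.2, ← h.up_r h' hd hd', h.dn_up h']
  · rw [← h.up_l h' hd hd', u.2, h.up_r h' hd hd']

theorem up_BP {g : Matrix ν κ S6} (hg : g ∈ MM q s j) : cM b' * g * cM a ∈ BP p e d r f d' j ↔
    g ∈ BB q (cM a * d * cM b) s (cM a' * d' * cM b') j := by
  refine ⟨fun ⟨_, k, u, v⟩ => ⟨cM a' * k * cM b, MM_mul (MM_mul h'.ba.mm u (zero_add _)) h.bb.mm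
    (add_zero _), ?_⟩, fun ⟨k, u, v⟩ => ⟨h.mem_MP h' hg, _, (h.mem_MP h' u).1, ?_⟩⟩
  · rw [← h.dn_up h' g, v, Matrix.mul_add, Matrix.add_mul, Matrix.mul_assoc _ (cM b), h.b_d hd,
      ← Matrix.mul_assoc, ← Matrix.mul_assoc, ← Matrix.mul_assoc _ (cM a' * k),
      ← Matrix.mul_assoc _ (cM a'), h'.a_d hd']
    simp only [Matrix.mul_assoc]
  · rw [v, Matrix.mul_add, Matrix.add_mul, h.up_l h' hd hd', h.up_r h' hd hd']

/-- the homotopy classes of maps between members are those between the fibres -/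
theorem hp_equiv : Nonempty (HH q (cM a * d * cM b) s (cM a' * d' * cM b') j ≃ₗ[ℂ]
    HP p e d r f d' j) := by
  refine hq_equiv (sand (cM b') (cM a))
    (fun z u => (h.up_ZP h' hd hd' u.1).2 u) (fun z u => h.up_BP h' hd hd' u.1) fun z u => ?_
  have k := MM_mul (MM_mul h'.ba.mm u.1.1 (zero_add _)) h.bb.mm (add_zero _)
  refine ⟨_, (h.up_ZP h' hd hd' k).1 ((h.up_dn h' u.1).symm ▸ u), ?_⟩
  exact (sub_eq_zero.2 (h.up_dn h' u.1).symm).symm ▸ zero_mem (BP p e d r f d' j)

theorem le_iff : ZP p e d r f d' j ≤ BP p e d r f d' j ↔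
    ZZ q (cM a * d * cM b) s (cM a' * d' * cM b') j ≤
      BB q (cM a * d * cM b) s (cM a' * d' * cM b') j := by
  refine ⟨fun k g u => (h.up_BP h' hd hd' u.1).1 (k ((h.up_ZP h' hd hd' u.1).2 u)),
    fun k z u => ?_⟩
  have m := MM_mul (MM_mul h'.ba.mm u.1.1 (zero_add _)) h.bb.mm (add_zero _)
  exact h.up_dn h' u.1 ▸ (h.up_BP h' hd hd' m).2
    (k ((h.up_ZP h' hd hd' m).1 ((h.up_dn h' u.1).symm ▸ u)))

end Spl

section

variable {T R : Type*} [TopologicalSpace T] [TopologicalSpace R] {t : T}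

theorem ca_mul [Mul R] [AddCommMonoid R] [ContinuousAdd R] [ContinuousMul R] {a : T → Matrix μ κ R}
    {b : T → Matrix κ ι R} (ha : ContinuousAt a t) (hb : ContinuousAt b t) :
    ContinuousAt (fun t => a t * b t) t :=
  ContinuousAt.comp (g := fun x : Matrix μ κ R × Matrix κ ι R => x.1 * x.2)
    (continuous_fst.matrix_mul continuous_snd).continuousAt (ha.prodMk hb)

theorem ca_det [DecidableEq ι] {a : T → Matrix ι ι ℂ} (ha : ContinuousAt a t) :
    ContinuousAt (fun t => (a t).det) t :=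
  ContinuousAt.comp (g := fun x : Matrix ι ι ℂ => x.det) continuous_id.matrix_det.continuousAt ha

theorem ca_inv [DecidableEq ι] {a : T → Matrix ι ι ℂ} (ha : ContinuousAt a t) (h : (a t).det ≠ 0) :
    ContinuousAt (fun t => (a t)⁻¹) t :=
  ContinuousAt.comp (g := fun x : Matrix ι ι ℂ => x⁻¹)
    (continuousAt_matrix_inv _ (Ring.inverse_eq_inv' (G₀ := ℂ) ▸ continuousAt_inv₀ h)) ha

end

/-- **local continuous splittings** -/
theorem Spl.loc [DecidableEq κ] {T : Type} [TopologicalSpace T] {e : T → Matrix ι ι ℂ}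
    (ce : Continuous e) (hb : ∀ t, Blk p p (e t)) (he : ∀ t, e t * e t = e t) {t₀ : T}
    {a₀ : Matrix κ ι ℂ} {b₀ : Matrix ι κ ℂ} (h : Spl p (e t₀) q a₀ b₀) :
    ∃ (a : T → Matrix κ ι ℂ) (b : T → Matrix ι κ ℂ), a t₀ = a₀ ∧ b t₀ = b₀ ∧ Continuous b ∧
      ∀ᶠ t in 𝓝 t₀, ContinuousAt a t ∧ Spl p (e t) q (a t) (b t) := by
  classical
  have eb : e t₀ * b₀ = b₀ := by rw [← h.eq, Matrix.mul_assoc, h.one, Matrix.mul_one]
  have ae : a₀ * e t₀ = a₀ := by rw [← h.eq, ← Matrix.mul_assoc, h.one, Matrix.one_mul]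
  let u := fun t => a₀ * e t * b₀
  have u0 : u t₀ = 1 := by rw [← h.one, ← ae]
  have cu : Continuous u := (continuous_const.matrix_mul ce).matrix_mul continuous_const
  let a := fun t => (u t)⁻¹ * (a₀ * e t)
  have a0 : a t₀ = a₀ := by simp only [a, u0, inv_one, Matrix.one_mul, ae]
  have ca : ∀ t, (u t).det ≠ 0 → ContinuousAt a t := fun t k =>
    ca_mul (ca_inv cu.continuousAt k) (continuous_const.matrix_mul ce).continuousAt
  have n0 : (u t₀).det ≠ 0 := by rw [u0, Matrix.det_one]; exact one_ne_zero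
  have c2 : ContinuousAt (fun t => (1 - (e t - e t * b₀ * a t)).det) t₀ :=
    ca_det (continuousAt_const.sub (ce.continuousAt.sub
      (ca_mul (ce.matrix_mul continuous_const).continuousAt (ca t₀ n0))))
  refine ⟨a, fun t => e t * b₀, a0, eb, ce.matrix_mul continuous_const, ?_⟩
  filter_upwards [cu.matrix_det.continuousAt.eventually_ne n0,
    c2.eventually_ne (y := 0) (by simp [a0, eb, h.eq])] with t k1 k2
  have ab : a t * (e t * b₀) = 1 := by
    rw [← Matrix.nonsing_inv_mul _ k1.isUnit]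
    simp only [a, u, Matrix.mul_assoc, ← Matrix.mul_assoc (e t), he]
  have ae : a t * e t = a t := by simp only [a, Matrix.mul_assoc, he]
  refine ⟨ca t k1, ((h.ba.mul (hb t)).mul h.bb).inv.mul (h.ba.mul (hb t)), (hb t).mul h.bb, ab,
    (sub_eq_zero.1 ?_).symm⟩
  have k3 : (e t - e t * b₀ * a t) * (e t - e t * b₀ * a t) = e t - e t * b₀ * a t := by
    rw [mul_sub, sub_mul, sub_mul, he, Matrix.mul_assoc _ (a t), ae, Matrix.mul_assoc _ (a t),
      ← Matrix.mul_assoc (a t), ab, Matrix.one_mul, ← Matrix.mul_assoc (e t) (e t * b₀),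
      ← Matrix.mul_assoc (e t) (e t), he, sub_self, sub_zero]
  rw [← Matrix.mul_nonsing_inv_cancel_right _ (e t - _) (Ne.isUnit k2), mul_sub _ 1, mul_one, k3,
    sub_self, zero_mul]

end Vale.Agent.P287T.Fa
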