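import Vale.Agent.P287T.Fa.Fil
import Vale.Agent.P287T.Fa.Cx
import Vale.Agent.P287T.Rr.St

/-!
# The bundle of a contractible family
-/

set_option linter.unusedSectionVars false

namespace Vale.Agent.P287T.Fa

open Set Function Module Matrix Cy P291Z P269 P269.Ch P269.Grr PowerSeries P287T.Rb P287T.Rr
  P287Z.O P287Z.O.L

variable {ι κ : Type} [Fintype ι] [Fintype κ]

open Classical in
/-- the components in `s` -/
noncomputable def cut (s : ι → Prop) : (ι → ℂ) →ₗ[ℂ] ι → ℂ :=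
  LinearMap.mulLeft ℂ fun i => if s i then 1 else 0

/-- a diagonal action -/
noncomputable abbrev ac {G : Type} (a : G → ι → ℂ) (g : G) : (ι → ℂ) →ₗ[ℂ] ι → ℂ :=
  LinearMap.mulLeft ℂ (a g)

theorem cut_pos (s : ι → Prop) {i : ι} (h : s i) (v : ι → ℂ) : cut s v i = v i :=
  (congrArg (· * v i) (if_pos h)).trans (one_mul _)

theorem cut_neg (s : ι → Prop) {i : ι} (h : ¬s i) (v : ι → ℂ) : cut s v i = 0 :=
  (congrArg (· * v i) (if_neg h)).trans (zero_mul _)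

theorem cut_sup (s : ι → Prop) (v : ι → ℂ) (i : ι) (h : ¬s i) : cut s v i = 0 := cut_neg s h v

theorem cut_eq {s : ι → Prop} {v : ι → ℂ} (h : ∀ i, ¬s i → v i = 0) : cut s v = v :=
  funext fun i => (em (s i)).elim (cut_pos s · v) fun k => (cut_neg s k v).trans (h i k).symm

theorem cut_gen {s : ι → Prop} {s' : κ → Prop} {A A' : Matrix κ ι ℂ} {v : ι → ℂ}
    (h : ∀ i j, v j ≠ 0 → (s' i → s j → A i j = A' i j) ∧ (s' i → ¬s j → A' i j = 0) ∧
      (¬s' i → s j → A i j = 0)) : A *ᵥ cut s v = cut s' (A' *ᵥ v) := funext fun i => by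
  change ∑ j, A i j * cut s v j = _
  by_cases a : s' i
  · rw [cut_pos _ a]
    refine Finset.sum_congr rfl fun j _ => show _ = A' i j * v j from ?_
    by_cases c : v j = 0
    · by_cases b : s j
      · rw [cut_pos _ b, c, mul_zero, mul_zero]
      · rw [cut_neg _ b, c, mul_zero, mul_zero]
    by_cases b : s j
    · rw [cut_pos _ b, (h i j c).1 a b]
    · rw [cut_neg _ b, (h i j c).2.1 a b, mul_zero, zero_mul]
  · rw [cut_neg _ a]
    refine Finset.sum_eq_zero fun j _ => ?_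
    by_cases b : s j
    · by_cases c : v j = 0
      · rw [cut_pos _ b, c, mul_zero]
      · rw [(h i j c).2.2 a b, zero_mul]
    · rw [cut_neg _ b, mul_zero]

theorem sup_mulVec {s : ι → Prop} {s' : κ → Prop} {A : Matrix κ ι ℂ} {v : ι → ℂ}
    (h : ∀ i j, ¬s' i → s j → A i j = 0) (hv : ∀ j, ¬s j → v j = 0) (i : κ) (hi : ¬s' i) :
    (A *ᵥ v) i = 0 := Finset.sum_eq_zero fun j _ =>
  (em (s j)).elim (fun k => mul_eq_zero_of_left (h i j hi k) _)
    fun k => mul_eq_zero_of_right _ (hv j k)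

variable {p : ι → ℤ} {q : κ → ℤ} {W : S6}

theorem Blk.cut {e : Matrix ι ι ℂ} (h : Blk p p e) (s : ℤ → Prop) {v : ι → ℂ} (hv : e *ᵥ v = v) :
    e *ᵥ cut (fun i => s (p i)) v = cut (fun i => s (p i)) v :=
  (cut_gen fun i j _ => ⟨fun _ _ => rfl, fun a b => h i j fun k => b (k ▸ a),
    fun a b => h i j fun k => a (k ▸ b)⟩).trans (congrArg _ hv)

theorem ev_odd {g : Matrix κ ι S6} {n : ℤ} (h : g ∈ MM p q n) (x : Fin 6 → ℂ) {i : κ} {j : ι}
    (k : ¬2 ∣ n + p j - q i) : evM x g i j = 0 :=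
  (congrArg (MvPolynomial.eval x) (hga_odd_eq_zero (h i j) k)).trans (map_zero _)

theorem ev_zero {g : Matrix κ ι S6} {n : ℤ} (h : g ∈ MM p q n) {i : κ} {j : ι}
    (k : n + p j - q i ≠ 0) : evM 0 g i j = 0 := by
  rw [evM, map_apply, MvPolynomial.eval_zero, MvPolynomial.constantCoeff_eq]
  by_contra e
  exact k ((hg_iff.1 (h i j) 0 (MvPolynomial.mem_support_iff.2 e)).symm.trans (by simp))

theorem ev_top {g : Matrix κ ι S6} {n : ℤ} (h : g ∈ MM p q n) (x : Fin 6 → ℂ) {i : κ} {j : ι}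
    (k : n + p j - q i ≤ 0) : evM x g i j = evM 0 g i j := by
  have : (g i j).totalDegree = 0 := Nat.le_zero.1 (Finset.sup_le fun m hm => by
    have h1 := hg_iff.1 (h i j) m hm
    have h2 : (m.sum fun _ e => e) = m.degree := rfl
    omega)
  rw [evM, evM, map_apply, map_apply, MvPolynomial.totalDegree_eq_zero_iff_eq_C.1 this,
    MvPolynomial.eval_C, MvPolynomial.eval_C]

theorem ev_eqv {g : Matrix κ ι S6} {n : ℤ} (h : g ∈ MM p q n) {c : ℂ} (hc : c ≠ 0) (μ : ℂ)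
    (x : Fin 6 → ℂ) {a : ι → ℤ} {b : κ → ℤ} {s : ι → Prop} {v : ι → ℂ} (hv : ∀ j, ¬s j → v j = 0)
    (k : ∀ i j, s j → 2 ∣ n + p j - q i → n + p j - q i + 2 * a j = 2 * b i) :
    evM (c • x) g *ᵥ ((fun j => c ^ a j * μ) * v) = (fun i => c ^ b i * μ) * evM x g *ᵥ v :=
  funext fun i => by
    rw [Pi.mul_apply, Matrix.mulVec, Matrix.mulVec, dotProduct, dotProduct, Finset.mul_sum]
    refine Finset.sum_congr rfl fun j _ => ?_
    by_cases hj : s j
    · have := hg_eval (h i j) hc x (k i j hj)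
      simp only [evM, map_apply, Pi.mul_apply]
      linear_combination (μ * v j) * this
    · simp only [Pi.mul_apply, hv j hj, mul_zero]

theorem evM_c (x : Fin 6 → ℂ) (u : Matrix κ ι ℂ) : evM x (cM u) = u :=
  Matrix.ext fun _ _ => MvPolynomial.eval_C _

namespace IsPF

variable {e : Matrix ι ι ℂ} {d : Matrix ι ι S6} (h : IsPF W p e d) {x : Fin 6 → ℂ}
include h

theorem ev_ed (x : Fin 6 → ℂ) (v : ι → ℂ) : e *ᵥ evM x d *ᵥ v = evM x d *ᵥ v := by
  rw [mulVec_mulVec, ← evM_c x e, ← evM_mul, h.ed]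

theorem ev_de (x : Fin 6 → ℂ) (v : ι → ℂ) : evM x d *ᵥ e *ᵥ v = evM x d *ᵥ v := by
  rw [mulVec_mulVec, ← evM_c x e, ← evM_mul, h.de]

theorem ev_sq (hx : MvPolynomial.eval x W = 0) (v : ι → ℂ) : evM x d *ᵥ evM x d *ᵥ v = 0 := by
  rw [mulVec_mulVec, ← evM_mul, h.sq, show evM x (W • cM e) = 0 from Matrix.ext fun i j =>
    (map_mul _ _ _).trans (mul_eq_zero_of_left hx _), zero_mulVec]

theorem lead (x : Fin 6 → ℂ) {n : ℤ} {v : ι → ℂ} (hv : ∀ i, n < p i → v i = 0) :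
    evM 0 d *ᵥ cut (p · = n) v = cut (p · = n + 3) (evM x d *ᵥ v) :=
  cut_gen fun i j c => by
    have : p j ≤ n := not_lt.1 fun k => c (hv j k)
    exact ⟨fun a b => (ev_top h.deg x (by omega)).symm, fun a b =>
      (ev_top h.deg x (by omega)).trans (ev_zero h.deg (by omega)),
      fun a b => ev_zero h.deg (by omega)⟩

/-- exactness on the cubic -/
theorem ev_ex (hs : Sm W) (x0 : x ≠ 0) (a : ℤ) {v : ι → ℂ}
    (hv : v ∈ Vf (fun i => 2 ∣ p i + a) e (evM x d)) :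
    ∃ u ∈ Vf (fun i => 2 ∣ p i + (a + 1)) e 0, evM x d *ᵥ u = v := by
  obtain ⟨k, hk⟩ := not_forall.1 fun k => x0 (hs x k)
  have h1 : evM x d * evM x (d.map (MvPolynomial.pderiv k)) +
      evM x (d.map (MvPolynomial.pderiv k)) * evM x d =
        MvPolynomial.eval x (MvPolynomial.pderiv k W) • e := by
    ext i j
    have := congrArg (fun M : Matrix ι ι S6 =>
      MvPolynomial.eval x (MvPolynomial.pderiv k (M i j))) h.sq
    simp only [Matrix.mul_apply, map_sum, Derivation.leibniz, smul_eq_mul, Finset.sum_add_distrib,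
      Matrix.smul_apply, cM, map_apply, MvPolynomial.pderiv_C, mul_zero, zero_add, map_add,
      map_mul, MvPolynomial.eval_C] at this
    simp only [Matrix.add_apply, Matrix.mul_apply, evM, map_apply, Matrix.smul_apply, smul_eq_mul,
      mul_comm _ (e i j), ← this, mul_comm (MvPolynomial.eval x (d _ j))]
  have h2 := congrArg (· *ᵥ v) h1
  simp only [add_mulVec, ← mulVec_mulVec, hv.2.2, mulVec_zero, add_zero, smul_mulVec,
    hv.2.1] at h2
  refine ⟨cut (fun i => 2 ∣ p i + (a + 1)) (e *ᵥ (MvPolynomial.eval x (MvPolynomial.pderiv k W))⁻¹ •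
    evM x (d.map (MvPolynomial.pderiv k)) *ᵥ v), ⟨cut_sup _ _,
      h.blk.cut (fun n => 2 ∣ n + (a + 1)) (by rw [mulVec_mulVec, h.ee]), zero_mulVec _⟩, ?_⟩
  rw [cut_gen (s' := fun i => 2 ∣ p i + a) (A' := evM x d) fun i j _ => ⟨fun _ _ => rfl,
    fun a b => ev_odd h.deg x (by omega), fun a b => ev_odd h.deg x (by omega)⟩, h.ev_de,
    mulVec_smul, h2, inv_smul_smul₀ hk, cut_eq hv.1]

end IsPF

variable {Y : Ch.Sp} {a a' : Y.G → ι → ℂ} {F : Y.T → Submodule ℂ (ι → ℂ)}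
  {e D D₀ : Y.T → Matrix ι ι ℂ}

theorem ac_congr (h : IsB (ac a) F) {s : ι → Prop} (hF : ∀ t, ∀ v ∈ F t, ∀ i, ¬s i → v i = 0)
    (k : ∀ g i, s i → a g i = a' g i) : IsB (ac a') F ∧ ch (ac a') F = ch (ac a) F :=
  h.congr fun g t v hv => funext fun i => (em (s i)).elim (fun u => congrArg (· * v i) (k g i u))
    fun u => show a g i * v i = a' g i * v i by rw [hF t v hv i u, mul_zero, mul_zero]

theorem ac_tw (h : IsB (ac a) F) (χ : Y.G →ₜ* ℂˣ) {s : ι → Prop}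
    (hF : ∀ t, ∀ v ∈ F t, ∀ i, ¬s i → v i = 0) (k : ∀ g i, s i → χ g * a g i = a' g i) :
    IsB (ac a') F ∧ ch (ac a') F = ex (c1 χ) * ch (ac a) F := by
  obtain ⟨h1, h2⟩ := isB_tw h χ (σ := ac fun g i => χ g * a g i)
    fun g t v _ => funext fun i => (mul_assoc _ _ _).symm
  exact ⟨(ac_congr h1 hF k).1, (ac_congr h1 hF k).2.trans h2⟩

theorem wc_mulVec {D : Y.T → Matrix κ ι ℂ} (h : Continuous D) (v : ι → ℂ) :
    WC fun t => (D t).mulVecLin v := WC.of_cont (h.matrix_mulVec continuous_const)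

theorem filM (P : Subring (Hev Y.X)⟦X⟧) (χ : Y.G →ₜ* ℂˣ) (hχ : ∀ n : ℤ, ex (c1 (χ ^ n)) ∈ P)
    (hV : IsB (ac fun g i => (χ g : ℂ) ^ wt (p i) * a g i)
      fun t => Vf (fun i => 2 ∣ p i + 0) (e t) (D t))
    (hK : ∀ n, IsB (ac a) (fun t => Vf (p · = n) (e t) (D₀ t)) ∧
      ch (ac a) (fun t => Vf (p · = n) (e t) (D₀ t)) ∈ P) (hb : ∀ t, Blk p p (e t))
    (ld : ∀ t n v, (∀ i, n < p i → v i = 0) → D t *ᵥ v = 0 → D₀ t *ᵥ cut (p · = n) v = 0)
    (surj : ∀ n t, ∀ k ∈ Vf (p · = 2 * n) (e t) (D₀ t),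
      ∃ v ∈ Vf (fun i => 2 ∣ p i + 0 ∧ p i ≤ 2 * n) (e t) (D t), cut (p · = 2 * n) v = k) :
    ch (ac fun g i => (χ g : ℂ) ^ wt (p i) * a g i)
      (fun t => Vf (fun i => 2 ∣ p i + 0) (e t) (D t)) ∈ P := by
  obtain ⟨N, hN⟩ := (Set.finite_range fun i => |p i|).bddAbove
  have b : ∀ i, -(2 * |N|) ≤ p i ∧ p i ≤ 2 * |N| := fun i => by
    have := abs_le.1 (hN ⟨i, rfl⟩)
    have := le_abs_self N
    have := abs_nonneg N
    omega
  have k := fun n => ac_tw (a' := fun g i => (χ g : ℂ) ^ wt (p i) * a g i) (hK (2 * n)).1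
    (χ ^ wt (2 * n)) (fun _ _ h => h.1) fun g i u => by rw [zp_apply, u]
  have e1 : (fun t => Vf (fun i => 2 ∣ p i + 0) (e t) (D t)) =
      fun t => Vf (fun i => 2 ∣ p i + 0 ∧ p i ≤ 2 * |N|) (e t) (D t) := by simp only [b, and_true]
  rw [e1] at hV ⊢
  refine fil P (V := fun n t => Vf (fun i => 2 ∣ p i + 0 ∧ p i ≤ 2 * n) (e t) (D t))
    (pr := fun n => cut (p · = 2 * n)) (a := -|N| - 1) (by have := abs_nonneg N; omega) hV
    (fun n => (k n).1) (fun n => (k n).2 ▸ P.mul_mem (hχ _) (hK _).2)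
    (fun n => ⟨fun t v hv => ⟨cut_sup _ _, (hb t).cut (· = 2 * n) hv.2.1,
      ld t _ v (fun i hi => hv.1 i fun u => hi.not_ge u.2) hv.2.2⟩, fun _ => WC.const _,
      fun g t v _ => mul_left_comm _ _ _⟩) surj (fun n t v => ⟨fun hv => ⟨⟨fun i hi => hv.1 i
        fun u => hi ⟨u.1, by omega⟩, hv.2⟩, funext fun i => ?_⟩, fun hv => ⟨fun i hi => ?_, hv.1.2⟩⟩)
    fun t v hv => funext fun i => hv.1 i fun u => by have := b i; omega
  · by_cases u : p i = 2 * n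
    · exact (cut_pos (p · = 2 * n) u v).trans (hv.1 i (by omega))
    · exact cut_neg (p · = 2 * n) u v
  · by_cases u : p i = 2 * n
    · exact (cut_pos (p · = 2 * n) u v).symm.trans (congrFun hv.2 i)
    · exact hv.1.1 i (by omega)

theorem fin_ch (D : Y.T → Matrix ι ι ℂ) :
    (support fun n => ch (ac a) fun t => Vf (p · = n) (e t) (D t)).Finite :=
  (Set.finite_range p).subset fun n hn => by_contra fun k =>
    hn (isB_bot (F := fun t => Vf (p · = n) (e t) (D t)) _ fun _ _ hv =>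
      funext fun i => hv.1 i fun u => k ⟨i, u⟩).2

/-- **a family that is exact at the origin** -/
theorem acyc (P : Subring (Hev Y.X)⟦X⟧) (χ : Y.G →ₜ* ℂˣ) (hχ : ∀ n : ℤ, ex (c1 (χ ^ n)) ∈ P)
    {d : Y.T → Matrix ι ι S6} (h : ∀ t, IsPF W p (e t) (d t)) {x : Y.T → Fin 6 → ℂ}
    (hx : ∀ t, MvPolynomial.eval (x t) W = 0) (h0 : MvPolynomial.eval 0 W = 0)
    (cd : Continuous fun t => evM 0 (d t))
    (eq : ∀ (g : Y.G) t v, evM 0 (d (g • t)) *ᵥ (a g * v) = a g * evM 0 (d t) *ᵥ v)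
    (ex0 : ∀ t v, e t *ᵥ v = v → evM 0 (d t) *ᵥ v = 0 → ∃ u, e t *ᵥ u = u ∧ evM 0 (d t) *ᵥ u = v)
    (hC : ∀ n, IsB (ac a) (fun t => Vf (p · = n) (e t) 0) ∧
      ch (ac a) (fun t => Vf (p · = n) (e t) 0) ∈ P)
    (hV : IsB (ac fun g i => (χ g : ℂ) ^ wt (p i) * a g i)
      fun t => Vf (fun i => 2 ∣ p i + 0) (e t) (evM (x t) (d t))) :
    ch (ac fun g i => (χ g : ℂ) ^ wt (p i) * a g i)
      (fun t => Vf (fun i => 2 ∣ p i + 0) (e t) (evM (x t) (d t))) ∈ P ∧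
    ∃ k : ℤ → (Hev Y.X)⟦X⟧, k.support.Finite ∧
      ∀ n, ch (ac a) (fun t => Vf (p · = n) (e t) 0) = k n + k (n + 3) := by
  obtain ⟨N, hN⟩ := (Set.finite_range p).bddAbove
  have s : ∀ n t, ∀ k ∈ Vf (p · = n + 3) (e t) (evM 0 (d t)),
      ∃ u ∈ Vf (p · = n) (e t) 0, evM 0 (d t) *ᵥ u = k := fun n t k hk => by
    obtain ⟨u, u1, u2⟩ := ex0 t k hk.2.1 hk.2.2
    refine ⟨cut (p · = n) u, ⟨cut_sup _ _, (h t).blk.cut (· = n) u1, zero_mulVec _⟩, ?_⟩
    rw [cut_gen (s' := (p · = n + 3)) (A' := evM 0 (d t)) fun i j _ => ⟨fun _ _ => rfl,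
      fun a b => ev_zero (h t).deg (by omega), fun a b => ev_zero (h t).deg (by omega)⟩, u2,
      cut_eq hk.1]
  have k := cyc P (K := fun n t => Vf (p · = n) (e t) (evM 0 (d t))) (b := N + 1)
    (D := fun t => (evM 0 (d t)).mulVecLin) (fun n => (hC n).1) (fun n => (hC n).2)
    (fun n => ⟨fun t v hv => ⟨sup_mulVec (fun i j a b => ev_zero (h t).deg (by omega)) hv.1,
      (h t).ev_ed 0 v, (h t).ev_sq h0 v⟩, wc_mulVec cd, fun g t v _ => eq g t v⟩) s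
    (fun n t v => ⟨fun hv => ⟨⟨hv.1, hv.2.1, zero_mulVec _⟩, hv.2.2⟩,
      fun hv => ⟨hv.1.1, hv.1.2.1, hv.2⟩⟩)
    fun n hn t v hv => funext fun i => hv.1 i fun u => by have := hN ⟨i, rfl⟩; omega
  refine ⟨filM P χ hχ hV (fun n => ⟨(k n).1, (k n).2.1⟩) (fun t => (h t).blk)
    (fun t n v hv u => by rw [(h t).lead (x t) hv, u, map_zero]) fun n t v hv => ?_,
    _, fin_ch _, fun n => (k n).2.2⟩
  obtain ⟨u, u1, u2⟩ := s (2 * n - 3) t v (by rwa [sub_add_cancel])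
  refine ⟨evM (x t) (d t) *ᵥ u, ⟨sup_mulVec (fun i j a b => ?_) u1.1, (h t).ev_ed _ u,
    (h t).ev_sq (hx t) u⟩, ?_⟩
  · by_cases c : 2 ∣ p i + 0
    · exact (ev_top (h t).deg _ (by omega)).trans (ev_zero (h t).deg (by omega))
    · exact ev_odd (h t).deg _ (by omega)
  · have := (h t).lead (x t) (n := 2 * n - 3) fun i hi => u1.1 i hi.ne'
    rw [cut_eq u1.1, u2, sub_add_cancel] at this
    exact this.symm

end Vale.Agent.P287T.Fa
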