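import Vale.Agent.P287T.Rb.Tk

/-!
# Filtered bundles and exact complexes of bundles
-/

set_option linter.unusedSectionVars false

namespace Vale.Agent.P287T.Fa

open Set Function Module P291Z P269.Ch P269.Grr PowerSeries P287T.Rb

variable {M M' : Type} [AddCommGroup M] [Module ℂ M] [AddCommGroup M'] [Module ℂ M']
  {Y : P269.Ch.Sp} {ρ : Y.G → M →ₗ[ℂ] M} {F : Y.T → Submodule ℂ M} {ρ' : Y.G → M' →ₗ[ℂ] M'}
  {F' : Y.T → Submodule ℂ M'} {A : Y.T → M →ₗ[ℂ] M'}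

theorem rk_ker {S : Submodule ℂ M} {S' : Submodule ℂ M'} {a : M →ₗ[ℂ] M'} [FiniteDimensional ℂ S]
    (mem : ∀ m ∈ S, a m ∈ S') (surj : ∀ m' ∈ S', ∃ m ∈ S, a m = m') :
    finrank ℂ S' + finrank ℂ (S ⊓ LinearMap.ker a : Submodule ℂ M) = finrank ℂ S := by
  have := (a.domRestrict S).finrank_range_add_finrank_ker
  rwa [LinearMap.range_domRestrict, show S.map a = S' from le_antisymm
    (Submodule.map_le_iff_le_comap.2 mem) surj, LinearMap.ker_domRestrict,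
    ← Submodule.finrank_map_subtype_eq, Submodule.map_comap_subtype] at this

/-- the kernel of a surjection -/
theorem ker_surj (h : IsB ρ F) (h' : IsB ρ' F') (k : HM ρ F ρ' F' A)
    (surj : ∀ t, ∀ m' ∈ F' t, ∃ m ∈ F t, A t m = m') {K : Y.T → Submodule ℂ M}
    (hK : ∀ t m, m ∈ K t ↔ m ∈ F t ∧ A t m = 0) : IsB ρ K ∧ ch ρ F = ch ρ K + ch ρ' F' := by
  obtain rfl : K = fun t => F t ⊓ LinearMap.ker (A t) := funext fun t => Submodule.ext (hK t)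
  have : IsB ρ fun t => F t ⊓ LinearMap.ker (A t) := by
    rcases isEmpty_or_nonempty Y.T with _ | ⟨⟨t₀⟩⟩
    · exact h.ker h' k (r := 0) fun t => isEmptyElim t
    refine h.ker h' k (r := finrank ℂ (F t₀) - finrank ℂ (F' t₀)) fun t => ?_
    have := h.fin t
    have := rk_ker (k.mem t) (surj t)
    rw [h.rank t₀ t, h'.rank t₀ t]
    omega
  exact ⟨this, h.ch_ker h' k this surj⟩

theorem isB_prod (h : IsB ρ F) (h' : IsB ρ' F') :
    IsB (fun g => (ρ g).prodMap (ρ' g)) (fun t => (F t).prod (F' t)) ∧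
      ch (fun g => (ρ g).prodMap (ρ' g)) (fun t => (F t).prod (F' t)) = ch ρ F + ch ρ' F' := by
  obtain ⟨E, j, h⟩ := h
  obtain ⟨E', j', h'⟩ := h'
  have k : Md (fun g => (ρ g).prodMap (ρ' g)) (fun t => (F t).prod (F' t)) (E.sum E')
      (j.prodMap j') :=
    ⟨h.inj.prodMap h'.inj, fun t => by rw [← h.map, ← h'.map]; exact LinearMap.prodMap_map_prod ..,
      fun g t w hw => Prod.ext (h.eqv g t _ hw.1) (h'.eqv g t _ hw.2)⟩
  exact ⟨⟨_, _, k⟩, by rw [k.ch, h.ch, h'.ch, chc_sum]⟩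

theorem isB_bot (ρ : Y.G → M →ₗ[ℂ] M) (e : ∀ t, ∀ m ∈ F t, m = 0) : IsB ρ F ∧ ch ρ F = 0 := by
  obtain rfl : F = fun _ => ⊥ := funext fun t => eq_bot_iff.2 (e t)
  have := ((isB_const Y (⊥ : Submodule ℂ M)).1.congr (σ := ρ) fun g t m hm => by
    rw [show m = 0 from hm, map_zero, map_zero]).1
  exact ⟨this, this.ch_zero e⟩

/-- a twist by a character -/
theorem isB_tw (h : IsB ρ F) (χ : Y.G →ₜ* ℂˣ) {σ : Y.G → M →ₗ[ℂ] M}
    (e : ∀ g t, ∀ m ∈ F t, (χ g : ℂ) • ρ g m = σ g m) :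
    IsB σ F ∧ ch σ F = ex (c1 χ) * ch ρ F := by
  obtain ⟨h1, h2⟩ := h.tw (Mor.id Y) χ
  obtain ⟨h3, h4⟩ := h1.congr (σ := σ) e
  exact ⟨h3, h4.trans (h2.trans (by rw [pS_id]))⟩

/-- **filtered bundles** -/
theorem fil (P : Subring (Hev Y.X)⟦X⟧) {V K : ℤ → Y.T → Submodule ℂ M} {pr : ℤ → M →ₗ[ℂ] M}
    {a b : ℤ} (hab : a ≤ b) (hV : IsB ρ (V b)) (hK : ∀ n, IsB ρ (K n)) (hP : ∀ n, ch ρ (K n) ∈ P)
    (k : ∀ n, HM ρ (V n) ρ (K n) fun _ => pr n)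
    (surj : ∀ n t, ∀ m' ∈ K n t, ∃ m ∈ V n t, pr n m = m')
    (st : ∀ n t m, m ∈ V (n - 1) t ↔ m ∈ V n t ∧ pr n m = 0) (h0 : ∀ t, ∀ m ∈ V a t, m = 0) :
    ch ρ (V b) ∈ P := by
  have : ∀ n ≤ b, IsB ρ (V n) ∧ ch ρ (V b) - ch ρ (V n) ∈ P := fun n hn => by
    induction n, hn using Int.leInductionDown with
    | base => exact ⟨hV, (sub_self (ch ρ (V b))).symm ▸ P.zero_mem⟩
    | pred n _ ih =>
      obtain ⟨h1, h2⟩ := ker_surj ih.1 (hK n) (k n) (surj n) (st n)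
      refine ⟨h1, ?_⟩
      rw [show ch ρ (V b) - ch ρ (V (n - 1)) = ch ρ (V b) - ch ρ (V n) + ch ρ (K n) by
        rw [h2]; ring]
      exact P.add_mem ih.2 (hP n)
  have h := (this a hab).2
  rwa [(isB_bot ρ h0).2, sub_zero] at h

/-- **exact complexes** -/
theorem cyc (P : Subring (Hev Y.X)⟦X⟧) {C K : ℤ → Y.T → Submodule ℂ M} {D : Y.T → M →ₗ[ℂ] M}
    {b : ℤ} (hC : ∀ n, IsB ρ (C n)) (hP : ∀ n, ch ρ (C n) ∈ P)
    (k : ∀ n, HM ρ (C n) ρ (K (n + 3)) D)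
    (surj : ∀ n t, ∀ m' ∈ K (n + 3) t, ∃ m ∈ C n t, D t m = m')
    (st : ∀ n t m, m ∈ K n t ↔ m ∈ C n t ∧ D t m = 0) (h0 : ∀ n, b ≤ n → ∀ t, ∀ m ∈ K n t, m = 0)
    (n : ℤ) : IsB ρ (K n) ∧ ch ρ (K n) ∈ P ∧ ch ρ (C n) = ch ρ (K n) + ch ρ (K (n + 3)) := by
  have : ∀ (j : ℕ) n, b - n ≤ j → IsB ρ (K n) ∧ ch ρ (K n) ∈ P := fun j => by
    induction j with
    | zero => exact fun n hn => ⟨(isB_bot ρ (h0 n (by omega))).1,
        (isB_bot ρ (h0 n (by omega))).2.symm ▸ P.zero_mem⟩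
    | succ j ih =>
      intro n hn
      obtain ⟨h1, h2⟩ := ih (n + 3) (by omega)
      obtain ⟨h3, h4⟩ := ker_surj (hC n) h1 (k n) (surj n) (st n)
      exact ⟨h3, eq_sub_of_add_eq h4.symm ▸ P.sub_mem (hP n) h2⟩
  exact ⟨(this _ n (Int.self_le_toNat _)).1, (this _ n (Int.self_le_toNat _)).2,
    (ker_surj (hC n) (this _ _ (Int.self_le_toNat _)).1 (k n) (surj n) (st n)).2⟩

theorem zsum {R : Type} [AddCommGroup R] [Module ℂ R] {z : ℤ → ℂ} (hz : ∀ n, z (n + 3) = -z n)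
    {u v k : ℤ → R} (fu : u.support.Finite) (fv : v.support.Finite) (fk : k.support.Finite)
    (h : ∀ n, u (n + 3) + v n = k n + k (n + 3)) : ∑ᶠ n, z n • v n = ∑ᶠ n, z n • u n := by
  have s : ∀ {w : ℤ → R}, w.support.Finite → (fun n => z n • w n).support.Finite := fun f =>
    f.subset fun n hn e => hn ((congrArg (z n • ·) e).trans (smul_zero _))
  have s3 : ∀ {w : ℤ → R}, w.support.Finite → (fun n => w (n + 3)).support.Finite := fun f =>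
    f.preimage (add_left_injective 3).injOn
  have sh : ∀ w : ℤ → R, ∑ᶠ n, z n • w (n + 3) = -∑ᶠ n, z n • w n := fun w => by
    rw [← finsum_comp_equiv (Equiv.addRight 3) (f := fun n => z n • w n), ← finsum_neg_distrib]
    refine finsum_congr fun n => ?_
    rw [Equiv.coe_addRight, hz, neg_smul, neg_neg]
  have e1 := finsum_add_distrib (s (s3 fu)) (s fv)
  have e2 := finsum_add_distrib (s fk) (s (s3 fk))
  simp only [← smul_add, h] at e1 e2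
  rw [e2, sh, sh, add_neg_cancel] at e1
  exact (neg_add_eq_zero.1 e1.symm).symm

end Vale.Agent.P287T.Fa
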