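import Vale.Agent.P287T.Fa.Cx
import Vale.Agent.P287T.Fa.Fil
import Vale.Agent.P287T.Rr.St

/-!
# The line bundle of maps between two families
-/

set_option linter.unusedSectionVars false

open Filter Topology Module Function
open scoped Matrix.Norms.Operator

namespace Vale.Agent.P287T.Fa

open Cy P291Z P269 P269.Ch P269.Grr P287T.Rr

variable {ι κ : Type} [Fintype ι] [Fintype κ] {B : Ch.Sp} {W : S6} {p : ι → ℤ} {q : κ → ℤ}
  {e : B.T → Matrix ι ι ℂ} {d : B.T → Matrix ι ι S6} {f : B.T → Matrix κ κ ℂ}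
  {d' : B.T → Matrix κ κ S6}

theorem exists_line (hE : EF B W p e d) (hF : EF B W q f d')
    (h1 : ∀ t, finrank ℂ (HP p (e t) (d t) q (f t) (d' t) 0) = 1) :
    ∃ (L : VB B) (j : L.W →ₗ[ℂ] Matrix κ ι S6), L.r = 1 ∧ (∀ w, j w ∈ MM p q 0) ∧
      (∀ (g : B.G) w, j (g • w) = j w) ∧ ∀ t, ∀ w ∈ L.F t, w ≠ 0 →
        j w ∈ ZP p (e t) (d t) q (f t) (d' t) 0 ∧ j w ∉ BP p (e t) (d t) q (f t) (d' t) 0 := by
  have hi : (-3 : ℤ) + 3 = 0 := rfl
  have := hE.cn
  let a := fun t => al (hE.pf.pf t) (hF.pf.pf t) hi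
  let b := fun t => be (hE.pf.pf t) (hF.pf.pf t) 0
  have ca : Continuous a := hE.pf.cont_al hF.pf hi
  have cb : Continuous b := hE.pf.cont_be hF.pf 0
  have nr : ∀ t, nuL (b t) = rkL (a t) + 1 := fun t => h1 t ▸ nu_rk _ _ hi
  have rc : ∀ t t', rkL (a t) = rkL (a t') := fun t t' =>
    ((IsLocallyConstant.iff_eventually_eq _).2 fun t₀ => ((rk_const ca.continuousAt
      cb.continuousAt nr).1.and (rk_le ca.continuousAt)).mono fun _ k =>
        le_antisymm k.1 k.2).apply_eq_of_preconnectedSpace t t'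
  obtain ⟨G, cG, hG⟩ := hE.pf.gi_al hF.pf hi h1
  let E := trivB B (MM p q 0)
  let Z : VB B := E.sub (fun t => (b t).toLinearMap.ker) ((⨆ t, rkL (a t)) + 1)
    (isClosed_eq ((cb.comp continuous_fst).clm_apply continuous_snd) continuous_const)
    (fun t => (nr t).trans (congrArg (· + 1) (iSup_rk rc t))) fun g t w hw =>
      (be_eq _ _ _).2 (by rw [hE.ie, hE.id, hF.ie, hF.id]; exact (be_eq _ _ _).1 hw)
  let D : VB B := E.sub (fun t => (a t).toLinearMap.range) (⨆ t, rkL (a t))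
    (by
      have : {x : B.T × MM p q 0 | x.2 ∈ (a x.1).toLinearMap.range} =
          {x | a x.1 (G x.1 x.2) = x.2} := Set.ext fun x =>
        ⟨fun ⟨y, e⟩ => show a _ (G _ _) = _ from e ▸ hG _ y, fun e => ⟨_, e⟩⟩
      exact this ▸ isClosed_eq ((ca.comp continuous_fst).clm_apply
        ((cG.comp continuous_fst).clm_apply continuous_snd)) continuous_snd)
    (iSup_rk rc) fun g t w hw =>
      (al_range _ _ _ _).2 (by rw [hE.ie, hE.id, hF.ie, hF.id]; exact (al_range _ _ _ _).1 hw)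
  have hP : Hom (Mor.id B) Z D fun t => (D.P t).toLinearMap :=
    Hom.of_continuous (fun t w _ => D.P_mem t w) (D.continuous_P continuous_fst continuous_snd)
      fun g t w _ => D.P_smul g t w
  refine ⟨hP.ker 1 fun t => ?_, (MM p q 0).subtype, rfl, fun w => w.2, fun _ _ => rfl,
    fun t w hw w0 => ⟨(be_eq _ _ _).1 hw.1, fun k =>
      w0 ((D.P_eq ((al_range _ _ hi _).2 k)).symm.trans hw.2)⟩⟩
  have := rk_ker (S := Z.F t) (S' := D.F t) (a := (D.P t).toLinearMap) (fun w _ => D.P_mem t w)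
    fun w hw => ⟨w, by obtain ⟨y, rfl⟩ := hw; exact be_al _ _ hi y, D.P_eq hw⟩
  rw [Z.rank, D.rank] at this
  exact add_left_cancel this

end Vale.Agent.P287T.Fa
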