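import Vale.Agent.P287T.Fa.Cone
import Vale.Agent.P287T.Fa.Lin

/-!
# The Chern characters of fibrewise equivalent families
-/

set_option linter.unusedSectionVars false

namespace Vale.Agent.P287T.Fa

open Set Function Module Matrix Cy P291Z P269 P269.Ch P269.Grr PowerSeries P287T.Rb P287T.Rr
  P287Z.O P287Z.O.L
open scoped Matrix.Norms.Operator

variable {ι κ : Type} [Fintype ι] [Fintype κ] {p : ι → ℤ} {q : κ → ℤ} {W : S6} {B X Y : Ch.Sp}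

theorem cont_ev {Z : Type} [TopologicalSpace Z] {g : Z → Matrix κ ι S6} {n : ℤ}
    (hg : ∀ z, g z ∈ MM p q n) (cg : Continuous g) {x : Z → Fin 6 → ℂ} (cx : Continuous x) :
    Continuous fun z => evM (x z) (g z) :=
  continuous_matrix fun i j => continuous_eval (fun z => hg z i j) (cg.matrix_elem i j) cx

theorem isB_fam {χ : Y.G →ₜ* ℂˣ} {w : ι → ℤ} {F : Y.T → Submodule ℂ (ι → ℂ)} {r : ℕ}
    (h : Fam χ w F r) : IsB (ac fun g i => (χ g : ℂ) ^ w i * 1) F ∧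
      ch (ac fun g i => (χ g : ℂ) ^ w i * 1) F = h.vb.chc := by
  obtain ⟨h1, h2⟩ := IsB.congr (F := F) ⟨_, _, md_self h.vb⟩
    (σ := ac fun g i => (χ g : ℂ) ^ w i * 1) fun g t v _ => (am_smul χ w g v).trans
      (funext fun i => congrArg (· * v i) (mul_one _).symm)
  exact ⟨h1, h2.trans (md_self h.vb).ch⟩

theorem fam_isB {χ : Y.G →ₜ* ℂˣ} {w : ι → ℤ} {F : Y.T → Submodule ℂ (ι → ℂ)}
    (h : IsB (ac fun g i => (χ g : ℂ) ^ w i * 1) F) : ∃ r, Fam χ w F r := by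
  obtain ⟨E, j, k⟩ := h
  refine ⟨E.r, ?_, k.rank, fun g t v hv => ?_⟩
  · have := (Topology.IsClosedEmbedding.id.prodMap (j.isClosedEmbedding_of_injective
      (LinearMap.ker_eq_bot.2 k.inj))).isClosedMap _ E.closed
    rwa [show Prod.map id j '' {x : Y.T × E.W | x.2 ∈ E.F x.1} = {x | x.2 ∈ F x.1} from
      Set.ext fun x => ⟨fun ⟨y, u, e⟩ => e ▸ k.mem.2 u, fun u =>
        ⟨(x.1, _), k.lft_mem u, Prod.ext rfl (k.rgt u)⟩⟩] at this
  · have := k.inv g hv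
    simp only [mul_one] at this
    exact this

theorem ac_pull {a : X.G → ι → ℂ} {F : X.T → Submodule ℂ (ι → ℂ)} (h : IsB (ac a) F) (m : Mor Y X)
    (μ : Y.G →ₜ* ℂˣ) {a' : Y.G → ι → ℂ} (k : ∀ g i, μ g * a (m.ρ g) i = a' g i) :
    IsB (ac a') (fun t => F (m.f t)) ∧
      ch (ac a') (fun t => F (m.f t)) = ex (c1 μ) * pS m.map (ch (ac a) F) := by
  obtain ⟨h1, h2⟩ := h.tw m μ
  obtain ⟨h3, h4⟩ := h1.congr (σ := ac a') fun g t v _ => funext fun i =>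
    (mul_assoc _ _ _).symm.trans (congrArg (· * v i) (k g i))
  exact ⟨h3, h4.trans h2⟩

/-- series with coefficients in the ring generated by the base and the hyperplane class -/
noncomputable def PB (π : Mor X B) (χ : X.G →ₜ* ℂˣ) : Subring (Hev X.X)⟦X⟧ :=
  (PowerSeries.map (evP π.map (c1 χ))).range

theorem mem_PB {π : Mor X B} {χ : X.G →ₜ* ℂˣ} {A : (Hev X.X)⟦X⟧} :
    A ∈ PB π χ ↔ ∀ k, ∃ P, evP π.map (c1 χ) P = coeff k A :=
  ⟨fun ⟨A', e⟩ k => ⟨_, e ▸ (coeff_map _ _ _).symm⟩, fun h => ⟨mk fun k => (h k).choose,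
    PowerSeries.ext fun k => by rw [coeff_map, coeff_mk, (h k).choose_spec]⟩⟩

theorem pS_PB (π : Mor X B) (χ : X.G →ₜ* ℂˣ) (A : (Hev B.X)⟦X⟧) : pS π.map A ∈ PB π χ :=
  mem_PB.2 fun _ => ⟨_, (evP_C _).trans (coeff_map _ _ _).symm⟩

theorem ex_PB (π : Mor X B) (χ : X.G →ₜ* ℂˣ) (n : ℤ) : ex (c1 (χ ^ n)) ∈ PB π χ :=
  mem_PB.2 fun k => ⟨.monomial k (algebraMap ℂ _ ((k.factorial : ℂ)⁻¹ * n ^ k)), by
    rw [evP_monomial, AlgHom.commutes, coeff_ex, c1_zpow, ← Int.cast_smul_eq_zsmul ℂ, smul_pow,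
      smul_smul, Algebra.smul_def]⟩

/-- coordinates of points of the cubic -/
structure Crd (W : S6) (χ : X.G →ₜ* ℂˣ) (x : X.T → Fin 6 → ℂ) : Prop where
  sm : Sm W
  cn : PreconnectedSpace X.T
  cx : Continuous x
  eqx : ∀ (g : X.G) t, x (g • t) = (χ g : ℂ) • x t
  nx : ∀ t, x t ≠ 0
  onX : ∀ t, MvPolynomial.eval (x t) W = 0
  zr : MvPolynomial.eval 0 W = 0

variable {e : B.T → Matrix ι ι ℂ} {d : B.T → Matrix ι ι S6} {f : B.T → Matrix κ κ ℂ}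
  {d' : B.T → Matrix κ κ S6} {χ : X.G →ₜ* ℂˣ} {x : X.T → Fin 6 → ℂ}

theorem isB_sup (h : EF B W p e d) (π : Mor X B) (χ : X.G →ₜ* ℂˣ) (cn : PreconnectedSpace X.T)
    (s : ℤ → Prop) (w : ℤ → ℤ) : IsB (ac fun g i => (χ g : ℂ) ^ w (p i) * 1)
      fun t => Vf (fun i => s (p i)) (e (π.f t)) 0 :=
  have k := h.pj_sup π χ s w cn
  (isB_fam ⟨k.cl, iSup_rk k.rk, fun g t v hv => am_smul χ _ g v ▸ k.iv g t v hv⟩).1

theorem isB_chg (h : EF B W p e d) (n : ℤ) :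
    IsB (ac fun _ _ => 1) fun t => Vf (p · = n) (e t) 0 :=
  (ac_congr (isB_sup h (Mor.id B) 1 h.cn (· = n) fun _ => 0) (fun _ _ hv => hv.1)
    fun _ _ _ => by simp).1

theorem Vf_ker (s : ι → Prop) (e D : Matrix ι ι ℂ) :
    Vf s e D = Vf s e 0 ⊓ LinearMap.ker D.mulVecLin :=
  Submodule.ext fun _ => ⟨fun u => ⟨⟨u.1, u.2.1, zero_mulVec _⟩, u.2.2⟩,
    fun u => ⟨u.1.1, u.1.2.1, u.2⟩⟩

variable (h : EF B W p e d) (π : Mor X B) (c : Crd W χ x)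
include h c

theorem Crd.hm {a b : ℤ} {w w' : ℤ → ℤ} (hab : ¬2 ∣ a + b)
    (hw : ∀ m n, 2 ∣ m + a → 2 ∣ 3 + m - n → 3 + m - n + 2 * w m = 2 * w' n) :
    HM (ac fun g i => (χ g : ℂ) ^ w (p i) * 1) (fun t => Vf (fun i => 2 ∣ p i + a) (e (π.f t)) 0)
      (ac fun g i => (χ g : ℂ) ^ w' (p i) * 1)
      (fun t => Vf (fun i => 2 ∣ p i + b) (e (π.f t)) (evM (x t) (d (π.f t))))
      fun t => (evM (x t) (d (π.f t))).mulVecLin :=
  ⟨fun t v hv => ⟨sup_mulVec (s := fun i => 2 ∣ p i + a)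
      (fun i j u v => ev_odd (h.pf.pf _).deg _ (by omega)) hv.1, (h.pf.pf _).ev_ed _ v,
      (h.pf.pf _).ev_sq (c.onX t) v⟩,
    wc_mulVec (cont_ev (fun _ => (h.pf.pf _).deg) (h.pf.contd.comp π.cf) c.cx), fun g t v hv => by
      rw [π.eqv, h.id, c.eqx]
      exact ev_eqv (h.pf.pf _).deg (χ g).ne_zero 1 _ hv.1 fun i j => hw _ _⟩

theorem Crd.isV {a : ℤ} {w₀ w w' : ℤ → ℤ}
    (hw₀ : ∀ m n, 2 ∣ m + (a + 1) → 2 ∣ 3 + m - n → 3 + m - n + 2 * w₀ m = 2 * w n)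
    (hw : ∀ m n, 2 ∣ m + a → 2 ∣ 3 + m - n → 3 + m - n + 2 * w m = 2 * w' n) :
    IsB (ac fun g i => (χ g : ℂ) ^ w (p i) * 1)
      fun t => Vf (fun i => 2 ∣ p i + a) (e (π.f t)) (evM (x t) (d (π.f t))) := by
  have := c.cn
  have := (isB_sup h π χ c.cn (2 ∣ · + (a + 1)) w₀).ker_ex (isB_sup h π χ c.cn (2 ∣ · + a) w)
    (isB_sup h π χ c.cn (2 ∣ · + (a + 1)) w')
    ((c.hm h π (b := a) (by omega) hw₀).mono (fun _ => le_rfl) fun t v hv =>
      let k := (c.hm h π (b := a) (by omega) hw₀).mem t v hv; ⟨k.1, k.2.1, zero_mulVec _⟩)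
    ((c.hm h π (b := a + 1) (by omega) hw).mono (fun _ => le_rfl) fun t v hv =>
      let k := (c.hm h π (b := a + 1) (by omega) hw).mem t v hv; ⟨k.1, k.2.1, zero_mulVec _⟩)
    fun t v hv => ⟨fun u => (h.pf.pf _).ev_ex c.sm (c.nx t) a ⟨hv.1, hv.2.1, u⟩,
      fun ⟨u, _, k⟩ => k ▸ (h.pf.pf _).ev_sq (c.onX t) u⟩
  simp only [Vf_ker _ _ (evM _ _)]
  exact this

omit h c in
theorem wt_eo (k m n : ℤ) (h : 2 ∣ m + 0) (h' : 2 ∣ 3 + m - n) :
    3 + m - n + 2 * (wt m + k) = 2 * (wt n + (k + 3)) := by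
  have := wt_even (a := m) (by omega)
  have := wt_odd (a := n) (by omega)
  omega

omit h c in
theorem wt_oe (k m n : ℤ) (h : 2 ∣ m + 1) (h' : 2 ∣ 3 + m - n) :
    3 + m - n + 2 * (wt m + k) = 2 * (wt n + k) := by
  have := wt_odd (a := m) (by omega)
  have := wt_even (a := n) (by omega)
  omega

theorem Crd.isV0 : IsB (ac fun g i => (χ g : ℂ) ^ wt (p i) * 1)
    fun t => Vf (fun i => 2 ∣ p i + 0) (e (π.f t)) (evM (x t) (d (π.f t))) :=
  c.isV h π (w₀ := wt) (w' := (wt · + 3)) (by simpa using wt_oe 0) (by simpa using wt_eo 0)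

theorem Crd.isV1 : IsB (ac fun g i => (χ g : ℂ) ^ (wt (p i) + 3) * 1)
    fun t => Vf (fun i => 2 ∣ p i + 1) (e (π.f t)) (evM (x t) (d (π.f t))) :=
  c.isV h π (w₀ := wt) (w := (wt · + 3)) (w' := (wt · + 3))
    (fun m n u => by simpa using wt_eo 0 m n (by omega)) (wt_oe 3)

theorem Crd.sj (t : X.T) : ∀ v ∈ Vf (fun i => 2 ∣ p i + 1) (e (π.f t)) (evM (x t) (d (π.f t))),
    ∃ u ∈ Vf (fun i => 2 ∣ p i + 0) (e (π.f t)) 0, evM (x t) (d (π.f t)) *ᵥ u = v := fun v hv =>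
  let ⟨u, u1, u2⟩ := (h.pf.pf _).ev_ex c.sm (c.nx t) 1 hv
  ⟨u, ⟨fun i hi => u1.1 i (by omega), u1.2⟩, u2⟩

theorem Crd.add : ch (ac fun g i => (χ g : ℂ) ^ wt (p i) * 1)
    (fun t => Vf (fun i => 2 ∣ p i + 0) (e (π.f t)) 0) =
    ch (ac fun g i => (χ g : ℂ) ^ wt (p i) * 1)
      (fun t => Vf (fun i => 2 ∣ p i + 0) (e (π.f t)) (evM (x t) (d (π.f t)))) +
    ch (ac fun g i => (χ g : ℂ) ^ (wt (p i) + 3) * 1)
      fun t => Vf (fun i => 2 ∣ p i + 1) (e (π.f t)) (evM (x t) (d (π.f t))) :=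
  (ker_surj (K := fun t => Vf (fun i => 2 ∣ p i + 0) (e (π.f t)) (evM (x t) (d (π.f t))))
    (isB_sup h π χ c.cn (2 ∣ · + 0) wt) (c.isV1 h π)
    (c.hm h π (w' := (wt · + 3)) (by omega) (by simpa using wt_eo 0)) (c.sj h π)
    fun _ _ => ⟨fun u => ⟨⟨u.1, u.2.1, zero_mulVec _⟩, u.2.2⟩, fun u => ⟨u.1.1, u.1.2.1, u.2⟩⟩).2

theorem Crd.evP : ch (ac fun g i => (χ g : ℂ) ^ wt (p i) * 1)
    (fun t => Vf (fun i => 2 ∣ p i + 0) (e (π.f t)) 0) ∈ PB π χ :=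
  filM (a := fun _ _ => 1) (D₀ := fun _ => 0) _ χ (ex_PB π χ) (isB_sup h π χ c.cn (2 ∣ · + 0) wt)
    (fun n => ⟨((isB_chg h n).pb π).1, ((isB_chg h n).pb π).2 ▸ pS_PB π χ _⟩)
    (fun _ => (h.pf.pf _).blk) (fun _ _ _ _ _ => zero_mulVec _) fun n t v hv =>
      ⟨v, ⟨fun i hi => hv.1 i (by omega), hv.2⟩, cut_eq hv.1⟩

omit h c in
theorem pS_smul {X X' : Type} [TopologicalSpace X] [TopologicalSpace X'] (g : C(X, X')) (a : ℂ)
    (A : (Hev X')⟦X⟧) : pS g (a • A) = a • pS g A :=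
  PowerSeries.ext fun k => by rw [coeff_map, coeff_smul, coeff_smul, coeff_map]; exact map_smul (Hev.map g) _ _

omit h c in
theorem fsum_ch {a : Y.G → ι → ℂ} (e : Y.T → Matrix ι ι ℂ) (z : ℤ → ℂ) :
    ∑ᶠ n, z n • ch (ac a) (fun t => Vf (p · = n) (e t) 0) =
      ∑ n ∈ Finset.univ.image p, z n • ch (ac a) fun t => Vf (p · = n) (e t) 0 :=
  finsum_eq_sum_of_support_subset _ fun n hn => by_contra fun k => hn (by
    dsimp only
    rw [(isB_bot (F := fun t => Vf (p · = n) (e t) 0) _ fun _ _ hv => funext fun i => hv.1 i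
      fun u => k (Finset.mem_image.2 ⟨i, Finset.mem_univ _, u⟩)).2, smul_zero])

/-- **comparison** -/
theorem Crd.cmp (h' : EF B W q f d') (inj : Injective (H.map π.map))
    (h1 : ∀ t, finrank ℂ (HP p (e t) (d t) q (f t) (d' t) 0) = 1)
    (h2 : ∀ t, ∀ φ ∈ ZP p (e t) (d t) q (f t) (d' t) 0, φ ∉ BP p (e t) (d t) q (f t) (d' t) 0 →
      EqP p (e t) (d t) q (f t) (d' t) φ) : ∃ l ∈ Hev.deg B.X 1,
    (∀ z : ℤ → ℂ, (∀ n, z (n + 3) = -z n) →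
      ∑ n ∈ Finset.univ.image q, z n • ch (ac fun _ _ => 1) (fun t => Vf (q · = n) (f t) 0) =
        ex l * ∑ n ∈ Finset.univ.image p, z n • ch (ac fun _ _ => 1) fun t => Vf (p · = n) (e t) 0) ∧
    ch (ac fun g i => (χ g : ℂ) ^ wt (q i) * 1)
      (fun t => Vf (fun i => 2 ∣ q i + 0) (f (π.f t)) (evM (x t) (d' (π.f t)))) -
      ex (Hev.map π.map l) * ch (ac fun g i => (χ g : ℂ) ^ wt (p i) * 1)
        (fun t => Vf (fun i => 2 ∣ p i + 0) (e (π.f t)) (evM (x t) (d (π.f t)))) ∈ PB π χ := by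
  obtain ⟨L, j, l1, l2, l3, l4⟩ := exists_line h h' h1
  let m := (L.pb π).pp
  let μ := (L.pb π).o1⁻¹
  let w : (L.pb π).PS.T → L.W := VB.PT.w (E := L.pb π)
  have cw : Continuous w := VB.PT.continuous_w
  have w1 : ∀ t, w t ∈ L.F (π.f (m.f t)) := VB.PT.mem
  have w2 : ∀ t, w t ≠ 0 := VB.PT.ne
  have im : Injective (H.map m.map) := (L.pb π).pp_injective (l1 ▸ one_pos : 0 < L.r)
  have e1 : c1 μ = Hev.map m.map (Hev.map π.map L.eu) := by
    rw [Hev.map_map, ← Mor.map_comp]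
    refine Iso.eu (E' := char μ) (A := fun t => LinearMap.toSpanSingleton ℂ L.W (w t))
      (.of_inj (.of_continuous (fun t a _ => (L.F _).smul_mem _ (w1 t))
        (Continuous.smul (M := ℂ) continuous_snd (cw.comp continuous_fst)) fun g t a _ => ?_)
        (fun t a _ u => (smul_eq_zero.1 u).resolve_right (w2 t)) l1.symm)
    change (((g.2⁻¹ : ℂˣ) : ℂ) * (show ℂ from a)) • (g.2 : ℂ) • π.ρ g.1 • w t =
      π.ρ g.1 • (show ℂ from a) • w t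
    rw [smul_smul, mul_right_comm, Units.inv_mul, one_mul]
    exact (smul_comm _ _ _).symm
  have e0 : ex (c1 (1 : (L.pb π).PS.G →ₜ* ℂˣ)) = 1 := by rw [c1_one, ex_zero]
  have e2 : ex (c1 μ) = pS m.map (pS π.map (ex L.eu)) := by rw [pS_ex, pS_ex, e1]
  have cφ : Continuous fun t : (L.pb π).PS.T => j (w t) :=
    j.continuous_of_finiteDimensional.comp cw
  have cb := π.cf.comp m.cf
  have kC := fun n => ac_pull ((isB_chg h n).pb π).1 m μ (a' := fun g _ => μ g) fun _ _ => mul_one _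
  have kC' := fun n => ac_pull ((isB_chg h' n).pb π).1 m 1 (a' := fun _ _ => 1) fun _ _ => mul_one _
  have kV := ac_pull (c.isV1 h π) m μ (a' := fun g i => (m.chr χ g : ℂ) ^ (wt (p i) + 3) * μ g)
    fun _ _ => (mul_comm _ _).trans (congrArg (· * _) (mul_one _))
  have kE := ac_pull (isB_sup h' π χ c.cn (2 ∣ · + 0) wt) m 1
    (a' := fun g i => (m.chr χ g : ℂ) ^ wt (q i) * 1) fun _ _ => one_mul _
  have kV' := ac_pull (c.isV1 h' π) m 1 (a' := fun g i => (m.chr χ g : ℂ) ^ (wt (q i) + 3) * 1)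
    fun _ _ => one_mul _
  have mp : ∀ A ∈ PB π χ, pS m.map A ∈ (PB π χ).map (pS m.map) := fun A u => ⟨A, u, rfl⟩
  obtain ⟨⟨A, a1, a2⟩, a3⟩ := cone_ch (χ := m.chr χ) (l := fun g => μ g) (x := fun t => x (m.f t))
    (φ := fun t => j (w t)) (fun g t => by rw [m.eqv, c.eqx]; rfl) (fun t => c.onX _)
    (fun _ => h.pf.pf _) (fun _ => h'.pf.pf _)
    (fun t => (l4 _ _ (w1 t) (w2 t)).1) (cont_ev (fun _ => l2 _) cφ (c.cx.comp m.cf))
    (cont_ev (fun _ => (h'.pf.pf _).deg) (h'.pf.contd.comp cb) (c.cx.comp m.cf))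
    (fun g t => by rw [m.eqv, π.eqv, h'.id]) (fun g t y v => by
      change evM y (j ((g.2 : ℂ) • π.ρ g.1 • w t)) *ᵥ
        ((g.2⁻¹ : ℂˣ) : ℂ) • v = _
      rw [map_smul, l3, show evM y ((g.2 : ℂ) • j (w t)) = (g.2 : ℂ) • evM y (j (w t))
        from Matrix.ext fun _ _ => MvPolynomial.smul_eval _ _ _, smul_mulVec, mulVec_smul,
        smul_smul, Units.mul_inv, one_smul])
    ((PB π χ).map (pS m.map)) (fun n => ⟨_, ex_PB π χ n, by
      rw [pS_ex, c1_zpow, c1_zpow, map_zsmul, map_c1]⟩) c.zr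
    (fun t => h2 _ _ (l4 _ _ (w1 t) (w2 t)).1 (l4 _ _ (w1 t) (w2 t)).2)
    (cont_ev (fun _ => (h.pf.pf _).deg) (h.pf.contd.comp cb) continuous_const)
    (cont_ev (fun _ => l2 _) cφ continuous_const)
    (cont_ev (fun _ => (h'.pf.pf _).deg) (h'.pf.contd.comp cb) continuous_const)
    (fun g t => by rw [m.eqv, π.eqv, h.id])
    (fun n => ⟨(kC n).1, by
      rw [(kC n).2, e2, ← map_mul]
      exact mp _ (mul_mem (pS_PB π χ _) (((isB_chg h n).pb π).2 ▸ pS_PB π χ _))⟩)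
    (fun n => ⟨(kC' n).1, by
      rw [(kC' n).2, e0, one_mul]
      exact mp _ (((isB_chg h' n).pb π).2 ▸ pS_PB π χ _)⟩) kV.1 kE.1 kV'.1 fun t => c.sj h' π _
  refine ⟨L.eu, by simpa only [l1, Nat.cast_one] using L.eu_deg, fun z hz => ?_, ?_⟩
  · have := a3 z hz
    rw [fsum_ch, fsum_ch] at this
    refine pS_injective inj (pS_injective im ?_)
    simp only [map_sum, map_mul, pS_smul, Finset.mul_sum, mul_smul_comm, ← e2]
    refine Eq.trans (Finset.sum_congr rfl fun n _ => ?_) (this.trans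
      (Finset.sum_congr rfl fun n _ => ?_))
    · rw [(kC' n).2, e0, one_mul, ← ((isB_chg h' n).pb π).2]
    · rw [(kC n).2, ← ((isB_chg h n).pb π).2]
  · rw [kV.2, kE.2, kV'.2, e0, one_mul, one_mul, e2, ← map_mul, ← map_add, ← map_sub,
      c.add h' π, pS_ex] at a2
    have := sub_mem a1 (mul_mem (pS_PB π χ (ex L.eu)) (c.evP h π))
    rw [pS_injective im a2, c.add h π, pS_ex] at this
    rwa [show ∀ a b c d l : (Hev X.X)⟦X⟧, l * b + (c + d) - d - l * (a + b) = c - l * a from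
      fun _ _ _ _ _ => by ring] at this

end Vale.Agent.P287T.Fa
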