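import Vale.Agent.P287T.Fa.Acy

/-!
# The cone of a fibrewise homotopy equivalence of families
-/

set_option linter.unusedSectionVars false

namespace Vale.Agent.P287T.Fa

open Set Function Module Matrix Cy P291Z P269 P269.Ch P269.Grr PowerSeries P287T.Rb P287T.Rr
  P287Z.O P287Z.O.L

variable {ι κ : Type} [Fintype ι] [Fintype κ] {p : ι → ℤ} {q : κ → ℤ} {W : S6}

/-- `φ` has a homotopy inverse -/
def EqP (p : ι → ℤ) (e : Matrix ι ι ℂ) (d : Matrix ι ι S6) (q : κ → ℤ) (f : Matrix κ κ ℂ)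
    (d' : Matrix κ κ S6) (φ : Matrix κ ι S6) : Prop :=
  ∃ ψ ∈ ZP q f d' p e d 0, ψ * φ - cM e ∈ BP p e d p e d 0 ∧ φ * ψ - cM f ∈ BP q f d' q f d' 0

theorem mem_Vf_sum {s : ι ⊕ κ → Prop} {e A : Matrix ι ι ℂ} {f A' : Matrix κ κ ℂ} {B : Matrix κ ι ℂ}
    {v : ι ⊕ κ → ℂ} : v ∈ Vf s (fromBlocks e 0 0 f) (fromBlocks (-A) 0 B A') ↔
      (v ∘ .inl ∈ Vf (s ∘ .inl) e A ∧ v ∘ .inr ∈ Vf (s ∘ .inr) f 0) ∧
        B *ᵥ v ∘ .inl + A' *ᵥ v ∘ .inr = 0 := by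
  change _ ∧ _ ∧ _ ↔ ((_ ∧ _ ∧ _) ∧ _ ∧ _ ∧ _) ∧ _
  simp only [fromBlocks_mulVec, zero_mulVec, add_zero, zero_add, funext_iff, Sum.forall,
    Sum.elim_inl, Sum.elim_inr, Function.comp_apply, neg_mulVec, Pi.neg_apply, Pi.zero_apply, neg_eq_zero,
    and_true]
  exact ⟨fun h => ⟨⟨⟨h.1.1, h.2.1.1, h.2.2.1⟩, h.1.2, h.2.1.2⟩, h.2.2.2⟩,
    fun h => ⟨⟨h.1.1.1, h.1.2.1⟩, ⟨h.1.1.2.1, h.1.2.2⟩, h.1.1.2.2, h.2⟩⟩

section pt

variable {e : Matrix ι ι ℂ} {d : Matrix ι ι S6} {f : Matrix κ κ ℂ} {d' : Matrix κ κ S6}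
  {φ : Matrix κ ι S6} (h : IsPF W p e d) (h' : IsPF W q f d') (hφ : φ ∈ ZP p e d q f d' 0)

theorem cM_blocks (e : Matrix ι ι ℂ) (f : Matrix κ κ ℂ) :
    cM (fromBlocks e 0 0 f) = fromBlocks (cM e) 0 0 (cM f) :=
  (fromBlocks_map _ _ _ _ _).trans (by rw [← cM, ← cM, ← cM, ← cM, cM_zero, cM_zero])

theorem evM_blocks (x : Fin 6 → ℂ) (d : Matrix ι ι S6) (φ : Matrix κ ι S6) (d' : Matrix κ κ S6) :
    evM x (fromBlocks (-d) 0 φ d') = fromBlocks (-evM x d) 0 (evM x φ) (evM x d') :=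
  (fromBlocks_map _ _ _ _ _).trans (by
    rw [Matrix.map_zero _ (map_zero _), Matrix.map_neg _ (map_neg _)]; rfl)

include h h' hφ

theorem IsPF.cone : IsPF W (Sum.elim (fun i => p i - 3) q) (fromBlocks e 0 0 f)
    (fromBlocks (-d) 0 φ d') where
  blk := by
    rintro (i | i) (j | j) k
    exacts [h.blk i j fun u => k (congrArg (· - 3) u), rfl, rfl, h'.blk i j k]
  ee := by simp [fromBlocks_multiply, h.ee, h'.ee]
  deg := by
    rintro (i | i) (j | j)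
    · exact (show 3 + p j - p i = 3 + (p j - 3) - (p i - 3) by ring) ▸
        (MM p p 3).neg_mem h.deg i j
    · exact hga_zero _
    · exact (show 0 + p j - q i = 3 + (p j - 3) - q i by ring) ▸ hφ.1.1 i j
    · exact h'.deg i j
  ed := by simp [cM_blocks, fromBlocks_multiply, h.ed, h'.ed, MP.left hφ.1 h'.ee]
  de := by simp [cM_blocks, fromBlocks_multiply, h.de, h'.de, MP.right hφ.1 h.ee]
  sq := by simp [cM_blocks, fromBlocks_multiply, h.sq, h'.sq, hφ.2.2, fromBlocks_smul]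

theorem cone_ex (k : EqP p e d q f d' φ) {x : Fin 6 → ℂ} (v : ι ⊕ κ → ℂ)
    (h1 : fromBlocks e 0 0 f *ᵥ v = v) (h2 : evM x (fromBlocks (-d) 0 φ d') *ᵥ v = 0) :
    ∃ u, fromBlocks e 0 0 f *ᵥ u = u ∧ evM x (fromBlocks (-d) 0 φ d') *ᵥ u = v := by
  obtain ⟨ψ, hψ, k1, k2⟩ := k
  obtain ⟨a, a1, a2⟩ := (mem_BP h h).1 k1
  obtain ⟨b, b1, b2⟩ := (mem_BP h' h').1 k2
  rw [evM_blocks] at h2 ⊢
  obtain ⟨⟨⟨-, u1, u2⟩, -, v1, -⟩, v2⟩ :=
    (mem_Vf_sum (s := fun _ => True)).1 ⟨fun _ k => (k trivial).elim, h1, h2⟩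
  have E : ∀ {α β : Type} {A B : Matrix α β S6} [Fintype β], A = B → ∀ y,
      evM x A *ᵥ y = evM x B *ᵥ y := fun e _ => by rw [e]
  have e1 := E (sub_eq_iff_eq_add.1 a2)
  have e2 := E (sub_eq_iff_eq_add.1 b2)
  have e3 := E hψ.2.2
  have e4 := E hφ.2.2
  have e5 := E (MP.left hψ.1 h.ee)
  have e6 := E (MP.left a1 h.ee)
  have e7 := E (MP.left b1 h'.ee)
  have e8 := E (MP.left hφ.1 h'.ee)
  have ad : ∀ {α : Type} (A B : Matrix α α S6), evM x (A + B) = evM x A + evM x B :=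
    fun A B => Matrix.map_add _ (map_add _) _ _
  simp only [ad, evM_mul, evM_c, add_mulVec, ← mulVec_mulVec] at e1 e2 e3 e4 e5 e6 e7 e8
  generalize evM x d = D, evM x d' = D', evM x φ = Φ, evM x ψ = Ψ, evM x a = A, evM x b = B at *
  have v3 := eq_neg_of_add_eq_zero_right v2
  have w1 : D *ᵥ (Ψ *ᵥ v ∘ .inr + A *ᵥ v ∘ .inl) = -(v ∘ .inl) := by
    rw [mulVec_add, e3, v3, mulVec_neg, e1, u2, u1, mulVec_zero]; abel
  obtain ⟨y, hy⟩ : ∃ y, y = v ∘ .inr - Φ *ᵥ (Ψ *ᵥ v ∘ .inr + A *ᵥ v ∘ .inl) := ⟨_, rfl⟩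
  have w2 : D' *ᵥ y = 0 := by rw [hy, mulVec_sub, e4, w1, v3, mulVec_neg, sub_self]
  have w3 : f *ᵥ y = y := by rw [hy, mulVec_sub, e8, v1]
  refine ⟨Sum.elim (Ψ *ᵥ v ∘ .inr + A *ᵥ v ∘ .inl + Ψ *ᵥ y) (-(B *ᵥ y)), ?_, ?_⟩
  · simp only [fromBlocks_mulVec, Sum.elim_comp_inl, Sum.elim_comp_inr, zero_mulVec, add_zero,
      zero_add, mulVec_add, mulVec_neg, e5, e6, e7, neg_zero]
  · rw [fromBlocks_mulVec, Sum.elim_comp_inl, Sum.elim_comp_inr, zero_mulVec, add_zero, neg_mulVec,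
      mulVec_add D, w1, e3, w2, mulVec_zero, add_zero, neg_neg, mulVec_add Φ, e2, w2, w3,
      mulVec_zero, add_zero, mulVec_neg, ← add_assoc, add_right_comm _ y, add_neg_cancel_right,
      hy, add_sub_cancel, Sum.elim_comp_inl_inr]

end pt

variable {Y : Ch.Sp}

theorem isB_sum {a : Y.G → ι → ℂ} {a' : Y.G → κ → ℂ} {F : Y.T → Submodule ℂ (ι → ℂ)}
    {F' : Y.T → Submodule ℂ (κ → ℂ)} (h : IsB (ac a) F) (h' : IsB (ac a') F')
    {G : Y.T → Submodule ℂ (ι ⊕ κ → ℂ)} (hG : ∀ t v, v ∈ G t ↔ v ∘ .inl ∈ F t ∧ v ∘ .inr ∈ F' t) :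
    IsB (ac fun g => Sum.elim (a g) (a' g)) G ∧
      ch (ac fun g => Sum.elim (a g) (a' g)) G = ch (ac a) F + ch (ac a') F' := by
  obtain ⟨⟨E, j, k⟩, e⟩ := isB_prod h h'
  let T := (LinearEquiv.sumArrowLequivProdArrow ι κ ℂ ℂ).symm
  have m : Md (ac fun g => Sum.elim (a g) (a' g)) G E (T.toLinearMap ∘ₗ j) :=
    ⟨T.injective.comp k.inj, fun t => by
      rw [Submodule.map_comp, k.map]
      exact Submodule.ext fun v => (Submodule.mem_map_equiv _).trans (hG t v).symm,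
      fun g t w hw => (congrArg T (k.eqv g t w hw)).trans (funext fun i => by cases i <;> rfl)⟩
  exact ⟨⟨_, _, m⟩, m.ch.trans (k.ch.symm.trans e)⟩

theorem wt_sub {n : ℤ} (h : ¬2 ∣ n) : wt (n - 3) = wt n + 3 := by
  have := wt_odd h
  have := wt_even (a := n - 3) (by omega)
  omega

variable {χ : Y.G →ₜ* ℂˣ} {l : Y.G → ℂ} {x : Y.T → Fin 6 → ℂ} {e : Y.T → Matrix ι ι ℂ}
  {d : Y.T → Matrix ι ι S6} {f : Y.T → Matrix κ κ ℂ} {d' : Y.T → Matrix κ κ S6}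
  {φ : Y.T → Matrix κ ι S6}

theorem cone_C {n : ℤ} (h : IsB (ac fun g _ => l g) fun t => Vf (p · = n + 3) (e t) 0)
    (h' : IsB (ac fun _ _ => 1) fun t => Vf (q · = n) (f t) 0) :
    IsB (ac fun g => Sum.elim (fun _ => l g) fun _ => 1)
      (fun t => Vf (Sum.elim (fun i => p i - 3) q · = n) (fromBlocks (e t) 0 0 (f t)) 0) ∧
    ch (ac fun g => Sum.elim (fun _ => l g) fun _ => 1)
      (fun t => Vf (Sum.elim (fun i => p i - 3) q · = n) (fromBlocks (e t) 0 0 (f t)) 0) =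
    ch (ac fun g _ => l g) (fun t => Vf (p · = n + 3) (e t) 0) +
      ch (ac fun _ _ => 1) fun t => Vf (q · = n) (f t) 0 :=
  isB_sum h h' fun t v => by
    have := mem_Vf_sum (s := (Sum.elim (fun i => p i - 3) q · = n)) (e := e t) (f := f t)
      (A := 0) (A' := 0) (B := 0) (v := v)
    rw [neg_zero, fromBlocks_zero] at this
    simp only [this, zero_mulVec, add_zero, and_true, comp_def, Sum.elim_inl, Sum.elim_inr,
      sub_eq_iff_eq_add]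

/-- pairs of vectors -/
def sm (S : Submodule ℂ (ι → ℂ)) (S' : Submodule ℂ (κ → ℂ)) : Submodule ℂ (ι ⊕ κ → ℂ) :=
  S.comap (LinearMap.funLeft ℂ ℂ .inl) ⊓ S'.comap (LinearMap.funLeft ℂ ℂ .inr)

theorem mem_sm {S : Submodule ℂ (ι → ℂ)} {S' : Submodule ℂ (κ → ℂ)} {v : ι ⊕ κ → ℂ} :
    v ∈ sm S S' ↔ v ∘ .inl ∈ S ∧ v ∘ .inr ∈ S' := Iff.rfl

/-- the second row of the differential of the cone -/
noncomputable def row2 (A : Matrix κ ι ℂ) (B : Matrix κ κ ℂ) : (ι ⊕ κ → ℂ) →ₗ[ℂ] κ → ℂ :=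
  A.mulVecLin ∘ₗ LinearMap.funLeft ℂ ℂ .inl + B.mulVecLin ∘ₗ LinearMap.funLeft ℂ ℂ .inr

theorem row2_apply (A : Matrix κ ι ℂ) (B : Matrix κ κ ℂ) (v : ι ⊕ κ → ℂ) :
    row2 A B v = A *ᵥ v ∘ .inl + B *ᵥ v ∘ .inr := rfl

variable (eqx : ∀ (g : Y.G) t, x (g • t) = (χ g : ℂ) • x t)
  (hx : ∀ t, MvPolynomial.eval (x t) W = 0) (h : ∀ t, IsPF W p (e t) (d t))
  (h' : ∀ t, IsPF W q (f t) (d' t)) (hφ : ∀ t, φ t ∈ ZP p (e t) (d t) q (f t) (d' t) 0)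
  (c4 : Continuous fun t => evM (x t) (φ t)) (c5 : Continuous fun t => evM (x t) (d' t))
  (i2 : ∀ (g : Y.G) t, d' (g • t) = d' t)
  (i3 : ∀ (g : Y.G) t y v, evM y (φ (g • t)) *ᵥ l g • v = evM y (φ t) *ᵥ v)
include eqx hx h' hφ c4 c5 i2 i3

theorem cone_hm : HM (ac fun g => Sum.elim (fun i => (χ g : ℂ) ^ (wt (p i) + 3) * l g)
      fun i => (χ g : ℂ) ^ wt (q i) * 1)
    (fun t => sm (Vf (fun i => 2 ∣ p i + 1) (e t) (evM (x t) (d t)))
      (Vf (fun i => 2 ∣ q i + 0) (f t) 0)) (ac fun g i => (χ g : ℂ) ^ (wt (q i) + 3) * 1)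
    (fun t => Vf (fun i => 2 ∣ q i + 1) (f t) (evM (x t) (d' t)))
    fun t => row2 (evM (x t) (φ t)) (evM (x t) (d' t)) := by
  refine ⟨fun t v hv => ?_, fun v => (wc_mulVec c4 _).add (wc_mulVec c5 _), fun g t v hv => ?_⟩
  · obtain ⟨h1, h2⟩ := mem_sm.1 hv
    rw [row2_apply]
    refine ⟨fun i hi => ?_, ?_, ?_⟩
    · rw [Pi.add_apply, sup_mulVec (s' := fun i => 2 ∣ q i + 1) (s := fun i => 2 ∣ p i + 1)
        (fun i j a b => ev_odd (hφ t).1.1 _ (by omega)) h1.1 i hi,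
        sup_mulVec (s' := fun i => 2 ∣ q i + 1) (s := fun i => 2 ∣ q i + 0)
        (fun i j a b => ev_odd (h' t).deg _ (by omega)) h2.1 i hi, add_zero]
    · rw [mulVec_add, (h' t).ev_ed, mulVec_mulVec, ← evM_c (x t) (f t), ← evM_mul,
        MP.left (hφ t).1 (h' t).ee]
    · rw [mulVec_add, (h' t).ev_sq (hx t), add_zero, mulVec_mulVec, ← evM_mul, (hφ t).2.2, evM_mul,
        ← mulVec_mulVec, h1.2.2, mulVec_zero]
  · obtain ⟨h1, h2⟩ := mem_sm.1 hv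
    have e1 := ev_eqv (hφ t).1.1 (χ g).ne_zero 1 (x t) (a := fun i => wt (p i) + 3)
      (b := fun i => wt (q i) + 3) h1.1 fun i j a b => by
        have := wt_odd (a := p j) (by omega)
        have := wt_odd (a := q i) (by omega)
        omega
    have e2 := ev_eqv (h' t).deg (χ g).ne_zero 1 (x t) (a := fun i => wt (q i))
      (b := fun i => wt (q i) + 3) h2.1 fun i j a b => by
        have := wt_even (a := q j) (by omega)
        have := wt_odd (a := q i) (by omega)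
        omega
    rw [← i3 g, ← eqx] at e1
    rw [← eqx] at e2
    rw [row2_apply, row2_apply, LinearMap.mulLeft_apply, LinearMap.mulLeft_apply, mul_add, ← e1,
      ← e2, i2]
    refine congrArg₂ (· + ·) (congrArg _ (funext fun i => ?_)) rfl
    change _ * l g * _ = l g * (_ * 1 * _)
    rw [mul_one, mul_left_comm, mul_assoc]
    rfl

include h

/-- **the cone** -/
theorem cone_ch (P : Subring (Hev Y.X)⟦X⟧) (hχ : ∀ n : ℤ, ex (c1 (χ ^ n)) ∈ P)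
    (h0 : MvPolynomial.eval 0 W = 0) (k : ∀ t, EqP p (e t) (d t) q (f t) (d' t) (φ t))
    (c0 : Continuous fun t => evM 0 (d t)) (c2 : Continuous fun t => evM 0 (φ t))
    (c3 : Continuous fun t => evM 0 (d' t)) (i1 : ∀ (g : Y.G) t, d (g • t) = d t)
    (hC : ∀ n, IsB (ac fun g _ => l g) (fun t => Vf (p · = n) (e t) 0) ∧
      ch (ac fun g _ => l g) (fun t => Vf (p · = n) (e t) 0) ∈ P)
    (hC' : ∀ n, IsB (ac fun _ _ => 1) (fun t => Vf (q · = n) (f t) 0) ∧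
      ch (ac fun _ _ => 1) (fun t => Vf (q · = n) (f t) 0) ∈ P)
    (hV : IsB (ac fun g i => (χ g : ℂ) ^ (wt (p i) + 3) * l g)
      fun t => Vf (fun i => 2 ∣ p i + 1) (e t) (evM (x t) (d t)))
    (hE : IsB (ac fun g i => (χ g : ℂ) ^ wt (q i) * 1) fun t => Vf (fun i => 2 ∣ q i + 0) (f t) 0)
    (hV' : IsB (ac fun g i => (χ g : ℂ) ^ (wt (q i) + 3) * 1)
      fun t => Vf (fun i => 2 ∣ q i + 1) (f t) (evM (x t) (d' t)))
    (sj : ∀ t, ∀ v ∈ Vf (fun i => 2 ∣ q i + 1) (f t) (evM (x t) (d' t)),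
      ∃ u ∈ Vf (fun i => 2 ∣ q i + 0) (f t) 0, evM (x t) (d' t) *ᵥ u = v) :
    ch (ac fun g i => (χ g : ℂ) ^ (wt (p i) + 3) * l g)
      (fun t => Vf (fun i => 2 ∣ p i + 1) (e t) (evM (x t) (d t))) +
      ch (ac fun g i => (χ g : ℂ) ^ wt (q i) * 1) (fun t => Vf (fun i => 2 ∣ q i + 0) (f t) 0) -
      ch (ac fun g i => (χ g : ℂ) ^ (wt (q i) + 3) * 1)
        (fun t => Vf (fun i => 2 ∣ q i + 1) (f t) (evM (x t) (d' t))) ∈ P ∧
    ∀ z : ℤ → ℂ, (∀ n, z (n + 3) = -z n) →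
      ∑ᶠ n, z n • ch (ac fun _ _ => 1) (fun t => Vf (q · = n) (f t) 0) =
        ∑ᶠ n, z n • ch (ac fun g _ => l g) fun t => Vf (p · = n) (e t) 0 := by
  have kC := fun n => cone_C (hC (n + 3)).1 (hC' n).1
  obtain ⟨g1, g2⟩ := isB_sum hV hE fun _ _ => mem_sm
  obtain ⟨g3, g4⟩ := ker_surj g1 hV' (cone_hm eqx hx h' hφ c4 c5 i2 i3)
    (K := fun t => Vf (fun i => 2 ∣ Sum.elim (fun i => p i - 3) q i + 0)
      (fromBlocks (e t) 0 0 (f t)) (evM (x t) (fromBlocks (-d t) 0 (φ t) (d' t))))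
    (fun t v hv => by
      obtain ⟨u, u1, u2⟩ := sj t v hv
      refine ⟨Sum.elim 0 u, mem_sm.2 ⟨zero_mem _, u1⟩, ?_⟩
      rw [row2_apply, Sum.elim_comp_inl, Sum.elim_comp_inr, mulVec_zero, zero_add, u2])
    fun t v => by
      rw [evM_blocks, mem_Vf_sum, show (fun i => 2 ∣ Sum.elim (fun i => p i - 3) q i + 0) ∘ Sum.inl
        = fun i => 2 ∣ p i + 1 from funext fun i => propext (show 2 ∣ p i - 3 + 0 ↔ _ by omega),
        mem_sm, row2_apply]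
      rfl
  obtain ⟨g5, g6⟩ := ac_congr g3 (fun _ _ hv => hv.1) (a' := fun g i =>
      (χ g : ℂ) ^ wt (Sum.elim (fun i => p i - 3) q i) * Sum.elim (fun _ => l g) (fun _ => 1) i) (by
    rintro g (i | i) u
    · exact congrArg ((χ g : ℂ) ^ · * l g) (wt_sub (by have : 2 ∣ p i - 3 + 0 := u; omega)).symm
    · rfl)
  obtain ⟨a1, r, a2, a3⟩ := acyc P χ hχ (fun t => (h t).cone (h' t) (hφ t)) hx h0
    (by simp only [evM_blocks]; exact c0.neg.matrix_fromBlocks continuous_const c2 c3)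
    (fun g t v => by
      rw [evM_blocks, evM_blocks, fromBlocks_mulVec, fromBlocks_mulVec, i1, i2,
        show (Sum.elim (fun _ => l g) (fun _ => 1) * v) ∘ .inl = l g • v ∘ .inl from rfl,
        show (Sum.elim (fun _ => l g) (fun _ => 1) * v) ∘ .inr = v ∘ .inr from one_mul _, i3,
        mulVec_smul, zero_mulVec, add_zero, add_zero]
      exact funext fun i => by cases i; exacts [rfl, (one_mul _).symm])
    (fun t => cone_ex (h t) (h' t) (hφ t) (k t))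
    (fun n => ⟨(kC n).1, (kC n).2 ▸ P.add_mem (hC _).2 (hC' _).2⟩) g5
  exact ⟨by rw [← g2, g4, add_sub_cancel_right, ← g6]; exact a1, fun z hz =>
    zsum hz (fin_ch _) (fin_ch _) a2 fun n => (kC n).2.symm.trans (a3 n)⟩

end Vale.Agent.P287T.Fa
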