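import Vale.Agent.P287T.Fa.Cx

/-!
# Deformation of a family over a compact base
-/

set_option linter.unusedSectionVars false

open MvPolynomial Filter Topology Module Function
open scoped Matrix.Norms.Operator

namespace Vale.Agent.P287T.Fa

open Cy P287Z.O P287Z.O.L P287Z.T

variable {ι κ : Type} [Fintype ι] [Fintype κ] {B : Type} [TopologicalSpace B]

/-- `d₀` deforms with the potentials `w b`, along a subspace transverse to the cocycles -/
def Lift [DecidableEq κ] (w : B → S6) (b₀ : B) (q : κ → ℤ) (d₀ : Matrix κ κ S6) : Prop :=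
  ∃ N ≤ MM q q 3, (∀ ξ ∈ N, d₀ * ξ + ξ * d₀ = 0 → ξ = 0) ∧
    ∀ U ∈ 𝓝 d₀, ∀ᶠ x : B × Matrix κ κ S6 in 𝓝 (b₀, d₀), x.2 ∈ MM q q 3 →
      ∃ D ∈ U, IsMF (w x.1) q D ∧ x.2 - D ∈ N

/-- a bilinear map of spaces of finite dimension -/
noncomputable def toL2 {E F G : Type*} [NormedAddCommGroup E] [NormedSpace ℂ E]
    [FiniteDimensional ℂ E] [NormedAddCommGroup F] [NormedSpace ℂ F] [FiniteDimensional ℂ F]
    [NormedAddCommGroup G] [NormedSpace ℂ G] (B : E →ₗ[ℂ] F →ₗ[ℂ] G) : E →L[ℂ] F →L[ℂ] G :=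
  LinearMap.toContinuousLinearMap
    ((LinearMap.toContinuousLinearMap : (F →ₗ[ℂ] G) ≃ₗ[ℂ] F →L[ℂ] G).toLinearMap ∘ₗ B)

/-- the product as a continuous bilinear map -/
noncomputable def mulQ (p : ι → ℤ) : MM p p 3 →L[ℂ] MM p p 3 →L[ℂ] MM p p 6 :=
  toL2 (LinearMap.mk₂ ℂ (fun f g : MM p p 3 => (⟨f.1 * g.1, MM_mul f.2 g.2 rfl⟩ : MM p p 6))
    (fun _ _ _ => Subtype.ext (Matrix.add_mul _ _ _))
    (fun _ _ _ => Subtype.ext (Matrix.smul_mul _ _ _))
    (fun _ _ _ => Subtype.ext (Matrix.mul_add _ _ _))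
    fun c a b => Subtype.ext (Matrix.mul_smul a.1 c b.1))

theorem t6 : (3 : ℤ) + 3 = 6 := rfl

theorem exists_prj {E : Type*} [NormedAddCommGroup E] [NormedSpace ℂ E] (S : Submodule ℂ E)
    [FiniteDimensional ℂ S] : ∃ P : E →L[ℂ] S, ∀ x : S, P x = x :=
  Submodule.ClosedComplemented.of_finiteDimensional S

variable {T : Type} [TopologicalSpace T] {p : ι → ℤ} {w : B → S6} {b₀ : B} {e : T → Matrix ι ι ℂ}
  {d : T → Matrix ι ι S6}

/-- the local argument: a solution of the projected equation is a solution -/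
theorem sol_loc {X : Type} [TopologicalSpace X] {x₀ : X} {s : X → T} {b : X → B}
    (cs : Continuous s) (cb : Continuous b) (hb : b x₀ = b₀) (h : PF (fun _ => w b₀) p e d)
    (hw : ∀ b, V.Hg 6 (w b))
    {G : T → MM p p 6 →L[ℂ] MM p p 3} (cG : Continuous G)
    (hG : ∀ t x, al (h.pf t) (h.pf t) t6 (G t (al (h.pf t) (h.pf t) t6 x)) =
      al (h.pf t) (h.pf t) t6 x) {D : X → Matrix ι ι S6} (cD : Continuous D)
    (hD : ∀ x, D x ∈ MP p (e (s x)) p (e (s x)) 3) (D0 : D x₀ = d (s x₀))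
    (hμ : ∀ x, ∀ μ : MM p p 6, μ.1 = D x * D x - w (b x) • cM (e (s x)) →
      al (h.pf (s x)) (h.pf (s x)) t6 (G (s x) μ) = 0)
    [DecidableEq κ] {q : κ → ℤ} {a₀ : Matrix κ ι ℂ} {c₀ : Matrix ι κ ℂ}
    (k : Spl p (e (s x₀)) q a₀ c₀) (l : Lift w b₀ q (cM a₀ * d (s x₀) * cM c₀)) :
    ∀ᶠ x in 𝓝 x₀, D x * D x = w (b x) • cM (e (s x)) := by
  obtain ⟨N, N1, N2, N3⟩ := l
  have := Submodule.finiteDimensional_of_le N1
  obtain ⟨a, c, a0, c0, cc, ha⟩ := Spl.loc (e := e ∘ s) (h.ce.comp cs) (fun x => (h.pf _).blk)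
    (fun x => (h.pf _).ee) k
  subst a0 c0
  obtain ⟨P, hP⟩ := exists_prj (MM p p 6)
  have ca : ContinuousAt (fun x => cM (a x)) x₀ :=
    continuous_cM.continuousAt.comp ha.self_of_nhds.1
  have cc : ContinuousAt (fun x => cM (c x)) x₀ := (continuous_cM.comp cc).continuousAt
  have cE : ContinuousAt (fun x => cM (a x) * D x * cM (c x)) x₀ :=
    ca_mul (ca_mul ca cD.continuousAt) cc
  let L : X × Matrix κ κ S6 → N →ₗ[ℂ] MM p p 6 := fun y =>
    (al (h.pf (s y.1)) (h.pf (s y.1)) t6 ∘L G (s y.1) ∘L P).toLinearMap ∘ₗ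
      sand (cM (c y.1)) (cM (a y.1)) ∘ₗ cmt (cM (a y.1) * D y.1 * cM (c y.1)) (-y.2) ∘ₗ N.subtype
  have L1 : ∀ y v, L y v = al (h.pf (s y.1)) (h.pf (s y.1)) t6 (G (s y.1) (P (cM (c y.1) *
      (cM (a y.1) * D y.1 * cM (c y.1) * v.1 - v.1 * -y.2) * cM (a y.1)))) := fun _ _ => rfl
  have L2 : ∀ᶠ y in 𝓝 (x₀, cM (a x₀) * d (s x₀) * cM (c x₀)), Injective (L y) := by
    refine inj_open (fun v => ?_) ((injective_iff_map_eq_zero _).2 fun v u => ?_)
    · simp only [L1]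
      have f : ∀ {M : Type} [TopologicalSpace M] {g : X → M}, ContinuousAt g x₀ →
          ContinuousAt (fun y : X × Matrix κ κ S6 => g y.1)
            (x₀, cM (a x₀) * d (s x₀) * cM (c x₀)) := fun k => k.fst'
      exact ((h.cont_al h t6).comp (cs.comp continuous_fst)).continuousAt.clm_apply
        ((cG.comp (cs.comp continuous_fst)).continuousAt.clm_apply (P.continuous.continuousAt.comp
          (ca_mul (ca_mul (f cc) ((ca_mul (f cE) continuousAt_const).sub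
            (ca_mul continuousAt_const continuousAt_snd.neg))) (f ca))))
    · have m := k.mem_MP k (N1 v.2)
      have e1 : cM (c x₀) * (cM (a x₀) * D x₀ * cM (c x₀) * v.1 -
          v.1 * -(cM (a x₀) * d (s x₀) * cM (c x₀))) * cM (a x₀) =
          (al (h.pf (s x₀)) (h.pf (s x₀)) t6 ⟨_, m.1⟩ : MM p p 6).1 := by
        rw [al_val, ← bd_eq (h.pf _) (h.pf _), m.2, D0, Matrix.mul_neg, sub_neg_eq_add,
          Matrix.mul_add, Matrix.add_mul, k.up_l k (h.pf _) (h.pf _), k.up_r k (h.pf _) (h.pf _)]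
      rw [L1, e1, hP, hG] at u
      rw [u, D0, Matrix.mul_neg, sub_neg_eq_add] at e1
      refine Subtype.ext (N2 _ v.2 ?_)
      rw [← k.dn_up k (_ + _), e1, ZeroMemClass.coe_zero, Matrix.mul_zero, Matrix.zero_mul]
  rw [nhds_prod_eq] at L2
  obtain ⟨V1, v1, V2, v2, L2⟩ := eventually_prod_iff.1 L2
  have t : Tendsto (fun x => (b x, cM (a x) * D x * cM (c x))) (𝓝 x₀)
      (𝓝 (b₀, cM (a x₀) * d (s x₀) * cM (c x₀))) := by
    rw [← hb, ← D0]; exact cb.continuousAt.prodMk cE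
  filter_upwards [t.eventually (N3 _ v2), ha, v1] with x u1 ⟨_, u2⟩ u3
  obtain ⟨D', d1, d2, d3⟩ := u1 (MM_mul (MM_mul u2.ba.mm (hD x).1 (zero_add _)) u2.bb.mm
    (add_zero _))
  have he := (h.pf (s x)).ee
  have e1 : cM (c x) * (cM (a x) * D x * cM (c x)) = D x * cM (c x) := by
    rw [← Matrix.mul_assoc, ← Matrix.mul_assoc, u2.ba']; exact congrArg (· * _) (MP.left (hD x) he)
  have e2 : cM (c x) * (cM (a x) * D x * cM (c x) * (cM (a x) * D x * cM (c x) - D') -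
      (cM (a x) * D x * cM (c x) - D') * -D') * cM (a x) = D x * D x - w (b x) • cM (e (s x)) := by
    rw [Matrix.mul_neg, sub_neg_eq_add, Matrix.mul_sub, Matrix.sub_mul, sub_add_sub_cancel, d2.sq,
      Matrix.mul_sub, Matrix.sub_mul, ← Matrix.mul_assoc, e1, Matrix.mul_assoc (D x), e1,
      Matrix.mul_smul, Matrix.mul_one, Matrix.smul_mul, u2.ba', Matrix.mul_assoc,
      Matrix.mul_assoc, u2.ba']
    exact congrArg (D x * · - _) (MP.right (hD x) he)
  have m : D x * D x - w (b x) • cM (e (s x)) ∈ MM p p 6 :=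
    sub_mem (MM_mul (hD x).1 (hD x).1 rfl) (MM_smul (hw _) (h.pf _).blk.mm rfl)
  have e3 : L (x, D') ⟨_, d3⟩ = 0 := by
    rw [L1]; dsimp only; rw [e2, hP ⟨_, m⟩]; exact hμ x _ rfl
  have e4 := congrArg Subtype.val ((injective_iff_map_eq_zero _).1 (L2 u3 d1) _ e3)
  dsimp only at e4
  rw [← sub_eq_zero, ← e2, e4]
  simp

/-- **deformation of a family** -/
theorem PF.deform [CompactSpace T] [T2Space T] (h : PF (fun _ => w b₀) p e d)
    (hw : ∀ b, V.Hg 6 (w b)) (cw : ∀ m, Continuous fun b => coeff m (w b)) {n : ℕ}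
    (k : ∀ t, finrank ℂ (HP p (e t) (d t) p (e t) (d t) 6) = n)
    (l : ∀ t, ∃ (r : ℕ) (q : Fin r → ℤ) (a : Matrix (Fin r) ι ℂ) (c : Matrix ι (Fin r) ℂ),
      Spl p (e t) q a c ∧ Lift w b₀ q (cM a * d t * cM c)) :
    ∃ U ∈ 𝓝 b₀, ∃ D : T × U → Matrix ι ι S6,
      PF (fun x : T × U => w x.2) p (fun x => e x.1) D ∧ ∀ t u, D (t, ⟨b₀, u⟩) = d t := by
  have cw := (continuous_hg hw).2 cw
  obtain ⟨G, cG, hG⟩ := h.gi_al h t6 k
  let π : T → MM p p 3 →L[ℂ] MM p p 3 := fun t =>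
    toL (sand (cM (e t)) (cM (e t))) fun _ u => (sand_MP (h.pf t) (h.pf t) u).1
  have cπ : Continuous π := continuous_toL _ fun _ =>
    (h.conte.matrix_mul continuous_const).matrix_mul h.conte
  have π1 : ∀ t x, (π t x).1 ∈ MP p (e t) p (e t) 3 := fun t x => sand_MP (h.pf t) (h.pf t) x.2
  have π2 : ∀ t x, al (h.pf t) (h.pf t) t6 (π t x) = al (h.pf t) (h.pf t) t6 x :=
    fun t x => Subtype.ext (by
      rw [al_val, ← bd_eq (h.pf t) (h.pf t), (π1 t x).2, al_val, ← bd_eq (h.pf t) (h.pf t)]; rfl)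
  let x : T × B → MM p p 6 := fun y => ⟨(w y.2 - w b₀) • cM (e y.1),
    MM_smul ((HG 6).sub_mem (hw _) (hw _)) (h.pf _).blk.mm rfl⟩
  obtain ⟨U, hU, v, cv, v1, v2⟩ := quad_loc (K := fun t => π t ∘L G t) (x := x) (b₀ := b₀) (mulQ p)
    (cπ.clm_comp cG) ((((cw.comp continuous_snd).sub continuous_const).smul
      (h.conte.comp continuous_fst)).subtype_mk _) fun t => Subtype.ext (by simp [x])
  have v3 : ∀ y, (v y).1 ∈ MP p (e y.1) p (e y.1) 3 := fun y => v1 y ▸ π1 _ _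
  have m : ∀ y : T × U, d y.1 + (v y).1 ∈ MP p (e y.1) p (e y.1) 3 := fun y =>
    add_mem (mem_MP (h.pf _).deg (h.pf _).ed (h.pf _).de) (v3 y)
  have cD : Continuous fun y : T × U => d y.1 + (v y).1 :=
    (h.contd.comp continuous_fst).add cv.subtype_val
  have u : ∀ᶠ b : U in 𝓝 ⟨b₀, mem_of_mem_nhds hU⟩, ∀ t ∈ Set.univ,
      (d t + (v (t, b)).1) * (d t + (v (t, b)).1) = w b • cM (e t) := by
    refine isCompact_univ.eventually_forall_of_forall_eventually fun t _ => ?_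
    obtain ⟨r, q, a, c, l1, l2⟩ := l t
    refine sol_loc (X := U × T) (s := Prod.snd) (b := fun y => y.1.1) continuous_snd
      continuous_fst.subtype_val rfl h hw cG hG (cD.comp continuous_swap) (fun y => m y.swap)
      (by simp [v2]) (fun y μ e1 => ?_) l1 l2
    have e2 : μ = al (h.pf y.2) (h.pf y.2) t6 (v y.swap) -
        (x (y.2, y.1) - mulQ p (v y.swap) (v y.swap)) := Subtype.ext (by
      rw [e1]
      change (d y.2 + (v y.swap).1) * (d y.2 + (v y.swap).1) - _ = (al _ _ _ _).1 -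
        ((w y.1 - w b₀) • cM (e y.2) - (v y.swap).1 * (v y.swap).1)
      rw [al_val, ← bd_eq (h.pf _) (h.pf _), show cM (e y.2) * _ * cM (e y.2) = _ from
        (v3 y.swap).2, add_mul, mul_add, mul_add, (h.pf y.2).sq, sub_smul]
      abel)
    rw [e2, map_sub, map_sub, hG, sub_eq_zero]
    exact (congrArg _ (v1 y.swap).symm).trans (π2 _ _)
  obtain ⟨U', u1, u2⟩ := (mem_nhds_subtype _ _ _).1 u
  let i : T × (U ∩ U' : Set B) → T × U := fun y => (y.1, ⟨y.2.1, y.2.2.1⟩)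
  have ci : Continuous i := continuous_fst.prodMk (continuous_snd.subtype_val.subtype_mk _)
  refine ⟨U ∩ U', inter_mem hU u1, fun y => d y.1 + (v (i y)).1, .of_cont (fun y =>
    ⟨(h.pf _).blk, (h.pf _).ee, (m (i y)).1, MP.left (m (i y)) (h.pf _).ee,
      MP.right (m (i y)) (h.pf _).ee, u2 (a := (i y).2) y.2.2.2 y.1 trivial⟩) (fun _ => hw _)
    (cw.comp continuous_snd.subtype_val) (h.ce.comp continuous_fst) (cD.comp ci), fun t k => ?_⟩
  exact (congrArg (d t + ·.1) (v2 t _)).trans (add_zero _)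

end Vale.Agent.P287T.Fa
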