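import Vale.Agent.P287T.Fa.Def
import Vale.Agent.P287T.Df.St
import Vale.Agent.P287T.Oc.Tp

/-!
# The lifting property from the Kuranishi retraction
-/

set_option linter.unusedSectionVars false

open MvPolynomial Filter Topology Module Function

namespace Vale.Agent.P287T.Df

open Cy

theorem kur_coef (hK : StKur) {ι : Type} [Fintype ι] [DecidableEq ι] {T : Type}
    [NormedAddCommGroup T] [NormedSpace ℂ T] [FiniteDimensional ℂ T] {w : T → Hs 6} {t0 : T}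
    {p : ι → ℤ} {d0 : MM p p 3} {f : T → ℂ} (h : IsMF (w t0).1 p d0.1)
    (k : finrank ℂ (HH p d0.1 p d0.1 6) ≤ 1) (c : Conf w t0 p d0 f) :
    ∃ N ≤ MM p p 3, (∀ ξ ∈ N, d0.1 * ξ + ξ * d0.1 = 0 → ξ = 0) ∧
      ∃ σ : T → Matrix ι ι S6 → MM p p 3, ∀ {α : Type} (l : Filter α) (t : α → T)
        (D : α → Matrix ι ι S6), Tendsto t l (𝓝 t0) → (∀ᶠ a in l, D a ∈ MM p p 3) →
        (∀ i j m, Tendsto (fun a => coeff m (D a i j)) l (𝓝 (coeff m (d0.1 i j)))) →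
        (∀ i j m, Tendsto (fun a => coeff m ((σ (t a) (D a)).1 i j)) l (𝓝 (coeff m (d0.1 i j)))) ∧
          ∀ᶠ a in l, f (t a) = 0 →
            IsMF (w (t a)).1 p (σ (t a) (D a)).1 ∧ D a - (σ (t a) (D a)).1 ∈ N := by
  let Z : Submodule ℂ (MM p p 3) := (ZZ p d0.1 p (-d0.1) 3).comap (MM p p 3).subtype
  obtain ⟨Q, hQ⟩ := Z.exists_isCompl
  let π : MM p p 3 →L[ℂ] MM p p 3 :=
    LinearMap.toContinuousLinearMap (Z.subtype ∘ₗ Z.projectionOnto Q hQ)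
  have π1 : ∀ g : MM p p 3, g.1 ∈ ZZ p d0.1 p (-d0.1) 3 → π g = g := fun g u =>
    congrArg Subtype.val (Submodule.projectionOnto_apply_left hQ ⟨g, u⟩)
  obtain ⟨σ, s1, s2, s3⟩ := hK w t0 p d0 f h k c π
    (fun g => (Z.projectionOnto Q hQ g).2) π1
  refine ⟨π.toLinearMap.ker.map (MM p p 3).subtype, Submodule.map_subtype_le _ _, ?_,
    fun t D => σ (t, prj p p 3 D), fun l t D h1 h2 h3 => ?_⟩
  · rintro _ ⟨g, u, rfl⟩ v
    exact congrArg Subtype.val ((π1 g ⟨g.2, by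
      rw [Matrix.neg_mul]; exact neg_eq_of_add_eq_zero_right v⟩).symm.trans u)
  have h4 : Tendsto (fun a => (t a, prj p p 3 (D a))) l (𝓝 (t0, d0)) :=
    h1.prodMk_nhds (tendsto_MM.2 fun i j m => (h3 i j m).congr'
      (h2.mono fun a u => congrArg (coeff m <| · i j) (prj_of_mem u).symm))
  refine ⟨tendsto_MM.1 (s2 ▸ s1.continuousAt.tendsto.comp h4), ?_⟩
  filter_upwards [h4.eventually s3, h2] with a u v e
  exact ⟨u.2.1 e, prj p p 3 (D a) - _, (map_sub π _ _).trans (sub_eq_zero.2 u.1.symm),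
    congrArg (· - _) (prj_of_mem v)⟩

end Vale.Agent.P287T.Df

namespace Vale.Agent.P287T.Fa

open scoped Matrix.Norms.Operator
open Cy

/-- **the lifting property** over the hypersurface `f = 0` -/
theorem lift_of_kur (hK : Df.StKur) {ι : Type} [Fintype ι] [DecidableEq ι] {T : Type}
    [NormedAddCommGroup T] [NormedSpace ℂ T] [FiniteDimensional ℂ T] {w : T → Df.Hs 6} {t0 : T}
    {p : ι → ℤ} {d0 : Matrix ι ι S6} {f : T → ℂ} (h : IsMF (w t0).1 p d0)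
    (k : finrank ℂ (HH p d0 p d0 6) ≤ 1) (c : Df.Conf w t0 p ⟨d0, h.deg⟩ f)
    {B : Type} [TopologicalSpace B] {b₀ : B} {s : B → T} (cs : ContinuousAt s b₀) (s0 : s b₀ = t0)
    (hs : ∀ b, f (s b) = 0) : Lift (fun b => (w (s b)).1) b₀ p d0 := by
  obtain ⟨N, N1, N2, σ, hσ⟩ := Df.kur_coef hK (d0 := ⟨d0, h.deg⟩) h k c
  refine ⟨N, N1, N2, fun U hU => eventually_inf_principal.1 ?_⟩
  have m : ∀ᶠ x : B × Matrix ι ι S6 in 𝓝 (b₀, d0) ⊓ 𝓟 {x | x.2 ∈ MM p p 3}, x.2 ∈ MM p p 3 :=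
    eventually_inf_principal.2 (.of_forall fun _ u => u)
  obtain ⟨h1, h2⟩ := hσ (𝓝 (b₀, d0) ⊓ 𝓟 {x : B × Matrix ι ι S6 | x.2 ∈ MM p p 3}) (fun x => s x.1)
    Prod.snd ((s0 ▸ cs.fst'.tendsto).mono_left inf_le_left) m
    ((tendsto_MM m h.deg).1 (continuousAt_snd.tendsto.mono_left inf_le_left))
  filter_upwards [((tendsto_MM (.of_forall fun x => (σ _ _).2) h.deg).2 h1).eventually_mem hU, h2]
    with x u v using ⟨_, u, v (hs _)⟩

end Vale.Agent.P287T.Fa
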