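import Mathlib
import Vale.Agent.P287T.Cy.Defs

/-!
# The normed model of polynomial matrices

`S6` carries the sum of the absolute values of the coefficients as a norm (scoped instances: write
`open scoped Vale.Agent.P287T.Fa Matrix.Norms.Operator`). The spaces `MM p q j` are of finite
dimension; on them the topology is the one of the convergence of all coefficients.
-/

set_option linter.unusedSectionVars false

open MvPolynomial Filter Topology
open scoped Matrix.Norms.Operator

namespace Vale.Agent.P287T.Fa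

open Cy P287Z.O P287Z.O.L

/-- the sum of the absolute values of the coefficients -/
noncomputable def n1 (f : S6) : ℝ := ∑ m ∈ f.support, ‖coeff m f‖

theorem n1_eq {f : S6} {s : Finset (Fin 6 →₀ ℕ)} (h : f.support ⊆ s) :
    n1 f = ∑ m ∈ s, ‖coeff m f‖ :=
  Finset.sum_subset h fun m _ k => by rw [notMem_support_iff.1 k, norm_zero]

theorem n1_add (f g : S6) : n1 (f + g) ≤ n1 f + n1 g := by
  classical
  rw [n1_eq support_add, n1_eq (f := f) Finset.subset_union_left,
    n1_eq (f := g) Finset.subset_union_right, ← Finset.sum_add_distrib]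
  exact Finset.sum_le_sum fun m _ => by rw [coeff_add]; exact norm_add_le _ _

theorem n1_smul (c : ℂ) (f : S6) : n1 (c • f) = ‖c‖ * n1 f := by
  rw [n1_eq support_smul, n1, Finset.mul_sum]
  exact Finset.sum_congr rfl fun m _ => by rw [coeff_smul, norm_smul]

theorem n1_monomial (m : Fin 6 →₀ ℕ) (c : ℂ) : n1 (monomial m c) = ‖c‖ := by
  classical
  rw [n1_eq support_monomial_subset, Finset.sum_singleton, coeff_monomial, if_pos rfl]

theorem coeff_le_n1 (m : Fin 6 →₀ ℕ) (f : S6) : ‖coeff m f‖ ≤ n1 f := by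
  classical
  rw [n1_eq (s := insert m f.support) (Finset.subset_insert _ _)]
  exact Finset.single_le_sum (f := fun m => ‖coeff m f‖) (fun _ _ => norm_nonneg _)
    (Finset.mem_insert_self _ _)

/-- the norm as an additive norm -/
noncomputable def n1G : AddGroupNorm S6 where
  toFun := n1
  map_zero' := by simp [n1]
  add_le' := n1_add
  neg' f := by rw [← neg_one_smul ℂ f, n1_smul]; simp
  eq_zero_of_map_eq_zero' f h := MvPolynomial.ext _ _ fun m =>
    norm_le_zero_iff.1 ((coeff_le_n1 m f).trans h.le)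

theorem n1_sum {α : Type*} (s : Finset α) (f : α → S6) : n1 (∑ a ∈ s, f a) ≤ ∑ a ∈ s, n1 (f a) :=
  Finset.le_sum_of_subadditive n1 n1G.map_zero'.le n1_add s f

theorem n1_mul (f g : S6) : n1 (f * g) ≤ n1 f * n1 g := by
  conv_lhs => rw [f.as_sum, g.as_sum, Finset.sum_mul_sum]
  conv_rhs => rw [n1, n1, Finset.sum_mul_sum]
  refine (n1_sum _ _).trans (Finset.sum_le_sum fun a _ => (n1_sum _ _).trans
    (Finset.sum_le_sum fun b _ => ?_))
  rw [monomial_mul, n1_monomial, norm_mul]

/-- the polynomials as a normed ring -/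
@[reducible] noncomputable def nrS : NormedCommRing S6 :=
  { RingNorm.toNormedRing { n1G with mul_le' := n1_mul } with mul_comm := mul_comm }

attribute [scoped instance] nrS

/-- the uniform structure of the norm -/
@[reducible] noncomputable def usS : UniformSpace S6 := nrS.toUniformSpace

attribute [scoped instance 2000] usS

/-- the polynomials as a normed algebra -/
@[reducible] noncomputable def naS : NormedAlgebra ℂ S6 :=
  { (inferInstance : Algebra ℂ S6) with norm_smul_le := fun c f => (n1_smul c f).le }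

attribute [scoped instance] naS

theorem norm_eq (f : S6) : ‖f‖ = n1 f := rfl

/-- a coefficient as a continuous linear form -/
noncomputable def coL (m : Fin 6 →₀ ℕ) : S6 →L[ℂ] ℂ :=
  (lcoeff ℂ m).mkContinuous 1 fun f => by rw [one_mul]; exact coeff_le_n1 m f

@[simp] theorem coL_apply (m : Fin 6 →₀ ℕ) (f : S6) : coL m f = coeff m f := rfl

/-- the monomials of charge `n` -/
theorem fin_deg (n : ℤ) : {m : Fin 6 →₀ ℕ | 2 * (m.degree : ℤ) = n}.Finite :=
  (Finsupp.finite_of_degree_le n.toNat).subset fun m (h : 2 * (m.degree : ℤ) = n) =>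
    show m.degree ≤ n.toNat by omega

theorem hg_eq_sum {n : ℤ} {f : S6} (h : V.Hg n f) :
    f = ∑ m ∈ (fin_deg n).toFinset, coeff m f • monomial m (1 : ℂ) := by
  conv_lhs => rw [f.as_sum]
  rw [Finset.sum_subset fun m k => (fin_deg n).mem_toFinset.2 (hg_iff.1 h m k)]
  · exact Finset.sum_congr rfl fun m _ => by rw [smul_monomial, smul_eq_mul, mul_one]
  · exact fun m _ k => by rw [notMem_support_iff.1 k, monomial_zero]

variable {ι κ : Type} [Fintype ι] [Fintype κ] {p : ι → ℤ} {q : κ → ℤ} {j : ℤ} {α : Type*}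

theorem tendsto_hg {l : Filter α} {n : ℤ} {f : α → S6} {g : S6} (hf : ∀ᶠ a in l, V.Hg n (f a))
    (hg : V.Hg n g) :
    Tendsto f l (𝓝 g) ↔ ∀ m, Tendsto (fun a => coeff m (f a)) l (𝓝 (coeff m g)) := by
  refine ⟨fun h m => ((coL m).continuous.tendsto g).comp h, fun h => ?_⟩
  rw [hg_eq_sum hg]
  exact (tendsto_finsetSum _ fun m _ => (h m).smul_const _).congr'
    (hf.mono fun a k => (hg_eq_sum k).symm)

/-- convergence in `MM p q j` is the convergence of the coefficients -/
theorem tendsto_MM {l : Filter α} {f : α → Matrix κ ι S6} {g : Matrix κ ι S6}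
    (hf : ∀ᶠ a in l, f a ∈ MM p q j) (hg : g ∈ MM p q j) : Tendsto f l (𝓝 g) ↔
      ∀ i k m, Tendsto (fun a => coeff m (f a i k)) l (𝓝 (coeff m (g i k))) := by
  exact tendsto_pi_nhds.trans (forall_congr' fun i => tendsto_pi_nhds.trans
    (forall_congr' fun k => tendsto_hg (hf.mono fun _ h => h i k) (hg i k)))

theorem continuous_hg [TopologicalSpace α] {n : ℤ} {f : α → S6} (hf : ∀ a, V.Hg n (f a)) :
    Continuous f ↔ ∀ m, Continuous fun a => coeff m (f a) := by
  simp only [continuous_iff_continuousAt, ContinuousAt]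
  exact (forall_congr' fun a => tendsto_hg (.of_forall hf) (hf a)).trans forall_comm

theorem continuous_MM [TopologicalSpace α] {f : α → Matrix κ ι S6} (hf : ∀ a, f a ∈ MM p q j) :
    Continuous f ↔ ∀ i k m, Continuous fun a => coeff m (f a i k) := by
  exact continuous_pi_iff.trans (forall_congr' fun i => continuous_pi_iff.trans
    (forall_congr' fun k => continuous_hg fun a => hf a i k))

theorem analyticAt_hg {E : Type*} [NormedAddCommGroup E] [NormedSpace ℂ E] {n : ℤ} {f : E → S6}
    {x : E} (hf : ∀ᶠ a in 𝓝 x, V.Hg n (f a)) :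
    AnalyticAt ℂ f x ↔ ∀ m, AnalyticAt ℂ (fun a => coeff m (f a)) x :=
  ⟨fun h m => ((coL m).analyticAt _).comp h, fun h =>
    (Finset.analyticAt_fun_sum _ fun m _ => (h m).smul analyticAt_const).congr
      (hf.mono fun _ k => (hg_eq_sum k).symm)⟩

/-- the evaluation of a continuous family of forms -/
theorem continuous_eval [TopologicalSpace α] {n : ℤ} {f : α → S6} (hf : ∀ a, V.Hg n (f a))
    (h : Continuous f) {x : α → Fin 6 → ℂ} (hx : Continuous x) :
    Continuous fun a => eval (x a) (f a) := by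
  have : (fun a => eval (x a) (f a)) = fun a => ∑ m ∈ (fin_deg n).toFinset,
      coeff m (f a) * eval (x a) (monomial m (1 : ℂ)) := funext fun a => by
    conv_lhs => rw [hg_eq_sum (hf a)]
    simp only [map_sum, smul_eval]
  rw [this]
  exact continuous_finsetSum _ fun m _ =>
    ((coL m).continuous.comp h).mul ((MvPolynomial.continuous_eval _).comp hx)

/-- the forms of charge `n` -/
def HG (n : ℤ) : Submodule ℂ S6 where
  carrier := {f | V.Hg n f}
  zero_mem' := hga_zero _
  add_mem' := hga_add
  smul_mem' c _ h := hga_smul c h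

instance finHG (n : ℤ) : FiniteDimensional ℂ (HG n) :=
  Submodule.finiteDimensional_of_le (S₂ := .span ℂ
    (((fin_deg n).toFinset.image fun m => monomial m (1 : ℂ) : Finset S6) : Set S6))
    fun f h => by
      rw [hg_eq_sum h]
      exact sum_mem fun m k => Submodule.smul_mem _ _
        (Submodule.subset_span (Finset.mem_coe.2 (Finset.mem_image_of_mem _ k)))

instance finMM (p : ι → ℤ) (q : κ → ℤ) (j : ℤ) : FiniteDimensional ℂ (MM p q j) :=
  .of_injective (V₂ := ∀ i l, HG (j + p l - q i))
    { toFun := fun g i l => ⟨g.1 i l, g.2 i l⟩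
      map_add' := fun _ _ => rfl
      map_smul' := fun _ _ => rfl }
    fun _ _ e => Subtype.ext (Matrix.ext fun i l => congrArg Subtype.val (congrFun (congrFun e i) l))

theorem MM_mul {μ : Type} {r : μ → ℤ} {k n : ℤ} {g : Matrix μ κ S6} {f : Matrix κ ι S6}
    (hg : g ∈ MM q r k) (hf : f ∈ MM p q j) (h : k + j = n) : g * f ∈ MM p r n := fun i l =>
  hga_sum _ fun a _ => hga_mul' (hg i a) (hf a l) (by omega)

theorem MM_one [DecidableEq ι] : (1 : Matrix ι ι S6) ∈ MM p p 0 := fun i l => by
  by_cases e : i = l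
  · subst e; simpa using hga_one
  · rw [Matrix.one_apply_ne e]; exact hga_zero _

theorem MM_smul {k n : ℤ} {w : S6} (hw : V.Hg k w) {f : Matrix κ ι S6} (hf : f ∈ MM p q j)
    (h : k + j = n) : w • f ∈ MM p q n := fun i l => hga_mul' hw (hf i l) (by omega)

theorem closed_MM : IsClosed (MM p q j : Set (Matrix κ ι S6)) :=
  Submodule.closed_of_finiteDimensional _

theorem uagSub (N : Submodule ℂ (Matrix κ ι S6)) : IsUniformAddGroup N :=
  N.toAddSubgroup.isUniformAddGroup

attribute [scoped instance] uagSub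

instance cplMM (p : ι → ℤ) (q : κ → ℤ) (j : ℤ) : CompleteSpace (MM p q j) :=
  FiniteDimensional.complete ℂ _

instance cplHG (n : ℤ) : CompleteSpace (HG n) := FiniteDimensional.complete ℂ _

/-- the product of matrices as a continuous bilinear map -/
noncomputable def mulL (μ κ ι : Type) [Fintype μ] [Fintype κ] [Fintype ι] :
    Matrix μ κ S6 →L[ℂ] Matrix κ ι S6 →L[ℂ] Matrix μ ι S6 :=
  (LinearMap.mk₂ ℂ (fun a b => a * b) Matrix.add_mul Matrix.smul_mul Matrix.mul_add
    fun c a b => Matrix.mul_smul a c b).mkContinuous₂ 1 fun a b => by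
      rw [one_mul]; exact Matrix.linfty_opNorm_mul a b

@[simp] theorem mulL_apply {μ : Type} [Fintype μ] (a : Matrix μ κ S6) (b : Matrix κ ι S6) :
    mulL μ κ ι a b = a * b := rfl

/-- an entry as a continuous linear map -/
noncomputable def enL (i : κ) (k : ι) : Matrix κ ι S6 →L[ℂ] S6 :=
  { Matrix.entryLinearMap ℂ S6 i k with cont := continuous_apply_apply i k }

@[simp] theorem enL_apply (i : κ) (k : ι) (a : Matrix κ ι S6) : enL i k a = a i k := rfl

section

variable {E : Type*} [NormedAddCommGroup E] [NormedSpace ℂ E] {x : E}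

theorem an_mul {μ : Type} [Fintype μ] {f : E → Matrix μ κ S6} {g : E → Matrix κ ι S6}
    (hf : AnalyticAt ℂ f x) (hg : AnalyticAt ℂ g x) : AnalyticAt ℂ (fun y => f y * g y) x :=
  ((mulL μ κ ι).analyticAt_bilinear _).comp₂ hf hg

theorem analyticAt_mat {f : E → Matrix κ ι S6} :
    AnalyticAt ℂ f x ↔ ∀ i k, AnalyticAt ℂ (fun y => f y i k) x := by
  classical
  refine ⟨fun h i k => ((enL i k).analyticAt _).comp h, fun h => ?_⟩
  have : f = fun y => ∑ i, ∑ k, f y i k • Matrix.single i k (1 : S6) := funext fun y => by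
    conv_lhs => rw [Matrix.matrix_eq_sum_single (f y)]
    simp only [Matrix.smul_single, smul_eq_mul, mul_one]
  rw [this]
  exact Finset.analyticAt_fun_sum _ fun i _ => Finset.analyticAt_fun_sum _ fun k _ =>
    (h i k).smul analyticAt_const

theorem analyticAt_MM {f : E → Matrix κ ι S6} (hf : ∀ᶠ a in 𝓝 x, f a ∈ MM p q j) :
    AnalyticAt ℂ f x ↔ ∀ i k m, AnalyticAt ℂ (fun a => coeff m (f a i k)) x :=
  analyticAt_mat.trans (forall₂_congr fun i k => analyticAt_hg (hf.mono fun _ h => h i k))

end

end Vale.Agent.P287T.Fa
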